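import Vale.Agent.P325.Bridge
import Vale.Agent.Lib.PCP.NPBridge

/-! The theorem of Cook and Levin in the form used for the statement. -/

namespace Vale.Agent.P325

theorem cookLevin : CookLevin := by
  intro L hL
  obtain ⟨V, p, hV, h⟩ := mem_NP_iff.1 hL
  exact Vale.Agent.Lib.PCP.cook_levin_fp V p hV h

end Vale.Agent.P325
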