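import Vale.Agent.P325.Defs
import Vale.Agent.Lib.PCP.Defs
import Vale.Agent.Lib.PolyTime.OfTM2

/-!
Bridge between the statement (`GapNPHard`) and the promise problems of the PCP library.
-/

namespace Vale.Agent.P325

open Vale.Agent.Lib.PolyTime Vale.Agent.Lib.PCP

theorem pair_eq_pr : pair = pr := by
  funext x y
  induction x with
  | nil => rfl
  | cons b x ih => simp [pair, pr, ih]

theorem codeList_eq {α : Type} [Enc α] (l : List α) : codeList (l.map enc) = enc l := by
  induction l with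
  | nil => rfl
  | cons a l ih => rw [List.map_cons, codeList, ih, pair_eq_pr, enc_cons]

theorem polyTime_iff {f : List Bool → List Bool} : PolyTime f ↔ FP ∅ f := by
  constructor
  · rintro ⟨M, -⟩
    exact OfTM2.FP_of_tm2 M
  · intro h
    exact exists_tm2_of_polyTimeFun _ _ f f (polyTimeFun_iff.2 h) fun _ => rfl

/-- The class NP in terms of the library. -/
theorem mem_NP_iff {L : Set (List Bool)} : L ∈ NP ↔ ∃ (V : Word → Word) (p : Polynomial ℕ),
    FP ∅ V ∧ ∀ x, x ∈ L ↔ ∃ w : Word, w.length ≤ p.eval x.length ∧ V (pr x w) = [true] := by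
  simp only [NP, Set.mem_ofPred_eq, polyTime_iff, pair_eq_pr]

/-- A language as a promise problem on raw words. -/
def langP (L : Set (List Bool)) : Promise Raw := ⟨fun x => x.w ∈ L, fun x => x.w ∉ L⟩

/-- The theorem of Cook and Levin, as a statement. -/
def CookLevin : Prop := ∀ L ∈ NP, Red (langP L) SAT3

/-- Constraints of unique games with vertices in `V` and labels in `A`. -/
abbrev UEdge (V A : Type) : Type := V × V × (A → A)

/-- Satisfaction of a constraint `(u, v, π)`: `a v = π (a u)`. -/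
def satU {V A : Type} [DecidableEq A] (c : UEdge V A) (a : V → A) : Bool :=
  decide (a c.2.1 = c.2.2 (a c.1))

/-- The gap problem of unique games. -/
def GapU (V A : Type) [DecidableEq A] (c s : ℝ) : Promise (List (UEdge V A)) where
  yes l := (∀ e ∈ l, Function.Bijective e.2.2) ∧ (Gap satU c s).yes l
  no l := (∀ e ∈ l, Function.Bijective e.2.2) ∧ (Gap satU c s).no l

section Conv

variable {V A : Type} [DecidableEq V] {k : ℕ}

/-- The list of vertices which occur. -/
def verts (l : List (UEdge V A)) : List V := l.map (fun c => c.1) ++ l.map (fun c => c.2.1)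

theorem idx1_lt {l : List (UEdge V A)} {c : UEdge V A} (h : c ∈ l) :
    (verts l).idxOf c.1 < (verts l).length :=
  List.idxOf_lt_length_iff.2 (List.mem_append_left _ (List.mem_map_of_mem h))

theorem idx2_lt {l : List (UEdge V A)} {c : UEdge V A} (h : c ∈ l) :
    (verts l).idxOf c.2.1 < (verts l).length :=
  List.idxOf_lt_length_iff.2 (List.mem_append_right _ (List.mem_map_of_mem h))

/-- Conversion to instances of the statement. -/
noncomputable def toUG (e : A ≃ Fin k) (l : List (UEdge V A)) (h0 : l ≠ [])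
    (h1 : ∀ c ∈ l, Function.Bijective c.2.2) : UG k where
  n := (verts l).length
  cons := l.attach.map fun c => (⟨_, idx1_lt c.2⟩, ⟨_, idx2_lt c.2⟩,
    (e.symm.trans (Equiv.ofBijective c.1.2.2 (h1 c.1 c.2))).trans e)
  cons_ne := by simpa using h0

theorem toUG_length (e : A ≃ Fin k) (l : List (UEdge V A)) (h0 : l ≠ [])
    (h1 : ∀ c ∈ l, Function.Bijective c.2.2) : (toUG e l h0 h1).cons.length = l.length := by
  simp [toUG]

theorem toUG_count [DecidableEq A] (e : A ≃ Fin k) (l : List (UEdge V A)) (h0 : l ≠ [])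
    (h1 : ∀ c ∈ l, Function.Bijective c.2.2) (a : Fin (toUG e l h0 h1).n → Fin k) (b : V → A)
    (hab : ∀ (v : V) (h : (verts l).idxOf v < (verts l).length), a ⟨_, h⟩ = e (b v)) :
    ((toUG e l h0 h1).cons.countP fun c => a c.2.1 = c.2.2 (a c.1)) = cnt satU l b := by
  have h2 : cnt satU l b = l.attach.countP fun c => satU c.1 b := by
    rw [cnt]
    conv_lhs => rw [← List.attach_map_subtype_val l]
    rw [List.countP_map]
    rfl
  rw [h2]
  simp only [toUG]
  rw [List.countP_map]
  refine List.countP_congr fun c _ => ?_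
  simp only [Function.comp_apply, satU, decide_eq_true_eq]
  have e1 := hab c.1.1 (idx1_lt c.2)
  have e2 := hab c.1.2.1 (idx2_lt c.2)
  refine Iff.trans (Eq.congr e2 (congrArg _ e1)) ?_
  simp

theorem toUG_bdd (G : UG k) : BddAbove (Set.range fun a : Fin G.n → Fin k =>
    (G.cons.countP fun c => a c.2.1 = c.2.2 (a c.1) : ℝ) / G.cons.length) :=
  (Set.finite_range _).bddAbove

theorem le_val_toUG [DecidableEq A] (e : A ≃ Fin k) (l : List (UEdge V A)) (h0 : l ≠ [])
    (h1 : ∀ c ∈ l, Function.Bijective c.2.2) {c : ℝ} (b : V → A)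
    (hb : c * l.length ≤ (cnt satU l b : ℝ)) : c ≤ (toUG e l h0 h1).val := by
  have hl : (0 : ℝ) < l.length := by exact_mod_cast List.length_pos_iff.2 h0
  refine le_trans ?_ (le_ciSup (toUG_bdd _)
    (fun i : Fin (verts l).length => e (b ((verts l)[i.1]'i.2))))
  have h3 := toUG_count e l h0 h1 (fun i : Fin (verts l).length => e (b ((verts l)[i.1]'i.2))) b
    (fun v h => by simp)
  rw [toUG_length, le_div_iff₀ hl]
  exact hb.trans (le_of_eq (congrArg _ h3.symm))

theorem val_toUG_le [DecidableEq A] [Nonempty A] (e : A ≃ Fin k) (l : List (UEdge V A))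
    (h0 : l ≠ []) (h1 : ∀ c ∈ l, Function.Bijective c.2.2) {s : ℝ}
    (hb : ∀ b : V → A, (cnt satU l b : ℝ) ≤ s * l.length) : (toUG e l h0 h1).val ≤ s := by
  have hl : (0 : ℝ) < l.length := by exact_mod_cast List.length_pos_iff.2 h0
  have : Nonempty (Fin (toUG e l h0 h1).n → Fin k) := ⟨fun _ => e (Classical.arbitrary A)⟩
  refine ciSup_le fun a => ?_
  rw [toUG_count e l h0 h1 a (fun v => if h : (verts l).idxOf v < (verts l).length then
    e.symm (a ⟨_, h⟩) else Classical.arbitrary A) (fun v h => by simp [h]), toUG_length,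
    div_le_iff₀ hl]
  exact hb _

/-- The data which is written down. -/
noncomputable def data (e : A ≃ Fin k) (l : List (UEdge V A)) : Un × List (List Raw) :=
  (⟨(verts l).length⟩, l.map fun c => [⟨((verts l).idxOf c.1).bits⟩, ⟨((verts l).idxOf c.2.1).bits⟩,
    ⟨enc (List.ofFn fun i : Fin k => (e (c.2.2 (e.symm i))).val)⟩])

theorem code_toUG (e : A ≃ Fin k) (l : List (UEdge V A)) (h0 : l ≠ [])
    (h1 : ∀ c ∈ l, Function.Bijective c.2.2) : (toUG e l h0 h1).code = enc (data e l) := by
  rw [data, enc_pair, enc_un, ← codeList_eq, UG.code, pair_eq_pr]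
  congr 2
  simp only [toUG, List.map_map]
  conv_rhs => rw [← List.attach_map_subtype_val l]
  rw [List.map_map]
  refine List.map_congr_left fun c _ => ?_
  simp only [Function.comp_apply]
  rw [← codeList_eq]
  simp only [List.map_cons, List.map_nil, enc_raw]
  rw [← codeList_eq, List.map_ofFn]
  simp only [List.attach_map_subtype_val]
  rfl

theorem PT_raw {α β : Type} [Enc α] [Enc β] {f : α → β} (hf : PT ∅ f) :
    PT ∅ fun a => Raw.mk (enc (f a)) := by
  obtain ⟨g, hg, h⟩ := hf
  exact ⟨g, hg, h⟩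

theorem PT_data [Enc V] [EncInj V] [Fintype A] [Enc A] [EncInj A] (e : A ≃ Fin k) :
    PT ∅ (data (V := V) e) := by
  have hv : PT ∅ (verts (V := V) (A := A)) :=
    PT.append (PT.map (f := fun _ (c : UEdge V A) => c.1) PT.id PT.snd'.fst)
      (PT.map (f := fun _ (c : UEdge V A) => c.2.1) PT.id PT.snd'.snd.fst)
  refine PT.pair (PT.mkUn hv.length (PBd.length hv)) (PT.map PT.id ?_)
  refine PT.cons (PT.rawBits (PT.idxOf (hv.comp PT.fst') PT.snd'.fst))
    (PT.cons (PT.rawBits (PT.idxOf (hv.comp PT.fst') PT.snd'.snd.fst)) (PT.cons ?_ PT.nil))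
  exact PT.finComp (fun π : A → A =>
    Raw.mk (enc (List.ofFn fun i : Fin k => (e (π (e.symm i))).val))) PT.snd'.snd.snd

end Conv

/-- Hardness of the gap problem in the library gives the statement. -/
theorem gapNPHard_of_hard (hCL : CookLevin) {V A : Type} [DecidableEq V] [Enc V] [EncInj V]
    [Fintype A] [DecidableEq A] [Nonempty A] [Enc A] [EncInj A] {c s : ℝ}
    (h : Hard (GapU V A c s)) : GapNPHard (Fintype.card A) c s := by
  intro L hL
  obtain ⟨f, hf, f1, f2⟩ := (hCL L hL).trans h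
  have h0 : ∀ x : List Bool, f ⟨x⟩ ≠ [] := fun x => by
    by_cases hx : x ∈ L
    · exact (f1 ⟨x⟩ hx).2.1
    · exact (f2 ⟨x⟩ hx).2.1
  have h1 : ∀ x : List Bool, ∀ c ∈ f ⟨x⟩, Function.Bijective c.2.2 := fun x => by
    by_cases hx : x ∈ L
    · exact (f1 ⟨x⟩ hx).1
    · exact (f2 ⟨x⟩ hx).1
  refine ⟨fun x => toUG (Fintype.equivFin A) (f ⟨x⟩) (h0 x) (h1 x), ?_, fun x hx => ?_,
    fun x hx => ?_⟩
  · obtain ⟨g, hg, hg'⟩ := (PT_data (Fintype.equivFin A)).comp hf
    refine polyTime_iff.2 (hg.congr fun x => ?_)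
    rw [code_toUG]
    exact hg' ⟨x⟩
  · obtain ⟨b, hb⟩ := (f1 ⟨x⟩ hx).2.2
    exact le_val_toUG _ _ _ _ b hb
  · exact val_toUG_le _ _ _ _ (f2 ⟨x⟩ hx).2.2

end Vale.Agent.P325
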