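import Vale.Agent.P325.Core
import Vale.Agent.P325.Bridge
import Vale.Agent.Lib.PCP.AlphaRed
import Vale.Agent.Lib.PCP.LCPow

/-!
The reduction from linear equations to unique games, as a polynomial time map.
-/

namespace Vale.Agent.P325

open Finset Vale.Agent.Lib.PCP Vale.Agent.Lib.PolyTime
open scoped BigOperators

/-! ### Rotations of equations -/

/-- Systems of value at least `c` against systems with small value even for assignments which
depend on the position. -/
def TagP (c γ : ℝ) : Promise (List (Eq3 ℕ)) where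
  yes l := l ≠ [] ∧ ∃ σ, c * l.length ≤ (cnt satLin l σ : ℝ)
  no l := l ≠ [] ∧ Tagged (fun i : Fin l.length => l[i]) γ

/-- The three rotations of an equation. -/
def rot (e : Eq3 ℕ) : List (Eq3 ℕ) :=
  [e, (e.2.1, e.2.2.1, e.1, e.2.2.2), (e.2.2.1, e.1, e.2.1, e.2.2.2)]

theorem PT_rot : PT ∅ rot :=
  PT.cons PT.id (PT.cons (PT.snd'.fst.pair (PT.snd'.snd.fst.pair (PT.fst'.pair PT.snd'.snd.snd)))
    (PT.cons (PT.snd'.snd.fst.pair (PT.fst'.pair (PT.snd'.fst.pair PT.snd'.snd.snd))) PT.nil))

theorem rot_aux0 (p q r b : Bool) :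
    (if (Bool.xor (Bool.xor p q) r == b) = true then (1 : ℝ) else 0) +
      ((if (Bool.xor (Bool.xor q r) p == b) = true then 1 else 0) +
        ((if (Bool.xor (Bool.xor r p) q == b) = true then 1 else 0) + 0)) =
      3 * if (Bool.xor (Bool.xor p q) r == b) = true then 1 else 0 := by
  cases p <;> cases q <;> cases r <;> cases b <;> norm_num

theorem rot_complete (e : Eq3 ℕ) (σ : ℕ → Bool) :
    ((rot e).map fun c => if satLin c σ = true then (1 : ℝ) else 0).sum =
      3 * if satLin e σ = true then (1 : ℝ) else 0 :=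
  rot_aux0 (σ e.1) (σ e.2.1) (σ e.2.2.1) e.2.2.2

theorem rot_aux (a0 a1 a2 b0 b1 b2 c0 c1 c2 : ZMod 2) (b : Bool)
    (h1 : a0 + b1 + c2 = if b = true then 1 else 0) (h2 : b0 + c1 + a2 = if b = true then 1 else 0)
    (h3 : c0 + a1 + b2 = if b = true then 1 else 0) :
    (Bool.xor (Bool.xor (decide (a0 + a1 + a2 = 1)) (decide (b0 + b1 + b2 = 1)))
      (decide (c0 + c1 + c2 = 1)) == b) = true := by
  have h : (a0 + a1 + a2) + (b0 + b1 + b2) + (c0 + c1 + c2) = if b = true then 1 else 0 := by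
    have h4 : (a0 + a1 + a2) + (b0 + b1 + b2) + (c0 + c1 + c2) =
        (a0 + b1 + c2) + (b0 + c1 + a2) + (c0 + a1 + b2) := by ring
    rw [h4, h1, h2, h3, f2_add_self, zero_add]
  revert h
  generalize a0 + a1 + a2 = x, b0 + b1 + b2 = y, c0 + c1 + c2 = z
  clear h1 h2 h3
  revert x y z b
  decide

theorem ite_three {P Q R S : Prop} [Decidable P] [Decidable Q] [Decidable R] [Decidable S]
    (h : P → Q → R → S) : (if P then (1 : ℝ) else 0) + ((if Q then 1 else 0) +
      ((if R then 1 else 0) + 0)) ≤ 2 + if S then (1 : ℝ) else 0 := by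
  by_cases hP : P <;> by_cases hQ : Q <;> by_cases hR : R <;> by_cases hS : S <;>
    simp only [hP, hQ, hR, hS, if_true, if_false] <;> norm_num
  exact hS (h hP hQ hR)

theorem rot_sound (e : Eq3 ℕ) (z : Fin 3 → ℕ → ZMod 2) :
    ((rot e).map fun c => if z 0 (evar c 0) + z 1 (evar c 1) + z 2 (evar c 2) = erhs c
      then (1 : ℝ) else 0).sum ≤
      2 + if satLin e (fun v => decide (z 0 v + z 1 v + z 2 v = 1)) = true then (1 : ℝ) else 0 :=
  ite_three fun h1 h2 h3 => rot_aux _ _ _ _ _ _ _ _ _ e.2.2.2 h1 h2 h3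

theorem red_rot (c γ : ℝ) : Red (Gap (satLin (V := ℕ)) c (1 - γ)) (TagP c (γ / 3)) := by
  have hlen : ∀ l : List (Eq3 ℕ), (l.flatMap rot).length = 3 * l.length := fun l =>
    length_flatMap_const l rot 3 fun _ _ => rfl
  have hne : ∀ l : List (Eq3 ℕ), l ≠ [] → l.flatMap rot ≠ [] := fun l hl => by
    rw [← List.length_pos_iff, hlen]
    exact Nat.mul_pos (by norm_num) (List.length_pos_iff.2 hl)
  refine ⟨fun l => l.flatMap rot, PT.flatMap PT.id (PT_rot.comp PT.snd'),
    fun l hl => ⟨hne l hl.1, ?_⟩, fun l hl => ⟨hne l hl.1, fun z => ?_⟩⟩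
  · obtain ⟨σ, hσ⟩ := hl.2
    refine ⟨σ, ?_⟩
    rw [cnt_eq_sum] at hσ ⊢
    rw [sum_map_flatMap, hlen]
    simp only [rot_complete, sum_map_mul_left']
    push_cast
    linarith
  · have hl0 : (0 : ℝ) < l.length := by exact_mod_cast List.length_pos_iff.2 hl.1
    have h1 := hl.2 (fun v => decide (z 0 v + z 1 v + z 2 v = 1))
    rw [cnt_eq_sum] at h1
    rw [Fintype.expect_eq_sum_div_card, ← sum_map_eq_sum_fin (l.flatMap rot)
      (fun c => if z 0 (evar c 0) + z 1 (evar c 1) + z 2 (evar c 2) = erhs c then (1 : ℝ) else 0),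
      sum_map_flatMap, Fintype.card_fin, hlen, div_le_iff₀ (by push_cast; linarith)]
    refine (sum_map_le_sum_map l fun e _ => rot_sound e z).trans ?_
    rw [List.sum_map_add, sum_map_const]
    push_cast
    linarith

/-! ### All tuples of members of a list -/

section Tuples

variable {α ι : Type} [Fintype ι]

/-- The list of all families of members of `l` indexed by `ι`. -/
noncomputable def tuples (ι : Type) [Fintype ι] (d : α) (l : List α) : List (ι → α) :=
  (List.range (l.length ^ Fintype.card ι)).map fun u i =>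
    l.getD (dig l.length u (Fintype.equivFin ι i)) d

theorem sum_tuples [DecidableEq ι] (d : α) (l : List α) (φ : (ι → α) → ℝ) :
    ((tuples ι d l).map φ).sum = ∑ u : ι → Fin l.length, φ fun i => l[u i] := by
  rw [tuples, List.map_map, sum_map_range, sum_range_pow]
  refine (Fintype.sum_equiv ((Fintype.equivFin ι).arrowCongr (Equiv.refl _)) _ _ fun u => ?_).symm
  simp only [Function.comp_apply]
  congr 1
  funext i
  rw [dig_fin]
  simp

theorem length_tuples (d : α) (l : List α) :
    (tuples ι d l).length = l.length ^ Fintype.card ι := by simp [tuples]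

theorem PT_tuples [Enc α] (d : α) : PT ∅ (tuples ι d) :=
  PT.map (f := fun (l : List α) (u : ℕ) (i : ι) =>
      l.getD (dig l.length u (Fintype.equivFin ι i)) d)
    (PT.range (PT.id.length.powConst _) ((PBd.length (A := ∅) PT.id).pow _))
    (PT.funMk fun _ => PT.getD PT.fst' (PT_dig PT.fst'.length PT.snd' _) (PT.const d))

end Tuples

/-! ### The constraints -/

/-- The random choices of the test. -/
abbrev Tape (s m n k t : ℕ) : Type :=
  (Ix k t → Vec m) × Fin (n + 1) × (Ix k t → ZMod 2) × (Fin k → Fin t → Vec m) × Vec s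

variable {s m n k t : ℕ}

/-- The constraint of the tuple `U` for the random choices `r`. -/
def uEdge (G : Gadget s m n) (U : Fin k → Fin t → Eq3 ℕ) (r : Tape s m n k t) :
    UEdge (Name k t (Vec m)) (Vec s) :=
  (name U r.1, name U (r.1 + tens (G.μ r.2.1) r.2.2.1 + shift U r.2.2.2.1 (G.κ r.2.2.2.2)),
    fun a => a + r.2.2.2.2)

/-- The constraints of a tuple. -/
noncomputable def uBlock (G : Gadget s m n) (T : Fin k × Fin t → Eq3 ℕ) :
    List (UEdge (Name k t (Vec m)) (Vec s)) :=
  (univ : Finset (Tape s m n k t)).toList.map (uEdge G fun j c => T (j, c))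

theorem length_uBlock (G : Gadget s m n) (T : Fin k × Fin t → Eq3 ℕ) :
    (uBlock G T).length = Fintype.card (Tape s m n k t) := by
  rw [uBlock, List.length_map, length_univ_toList]

theorem sum_uBlock (G : Gadget s m n) (T : Fin k × Fin t → Eq3 ℕ)
    (F : Name k t (Vec m) → Vec s) :
    ((uBlock G T).map fun c => if satU c F = true then (1 : ℝ) else 0).sum =
      Fintype.card (Tape s m n k t) * acc G F fun j c => T (j, c) := by
  rw [uBlock, List.map_map, sum_map_univ, ← Fintype.card_mul_expect]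
  congr 1
  simp only [← univ_product_univ, expect_product, acc, Function.comp_apply, satU, uEdge,
    decide_eq_true_eq]
  rfl

/-- The unique game of a system of equations. -/
noncomputable def uGame (G : Gadget s m n) (k t : ℕ) (l : List (Eq3 ℕ)) :
    List (UEdge (Name k t (Vec m)) (Vec s)) :=
  (tuples (Fin k × Fin t) (0, 0, 0, false) l).flatMap (uBlock G)

theorem length_uGame (G : Gadget s m n) (l : List (Eq3 ℕ)) : (uGame G k t l).length =
    Fintype.card (Tape s m n k t) * l.length ^ Fintype.card (Fin k × Fin t) := by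
  rw [uGame, length_flatMap_const _ _ _ fun T _ => length_uBlock G T, length_tuples]

theorem cnt_uGame (G : Gadget s m n) (l : List (Eq3 ℕ)) (F : Name k t (Vec m) → Vec s) :
    (cnt satU (uGame G k t l) F : ℝ) = (𝔼 u : Fin k → Fin t → Fin l.length,
      acc G F fun j c => l[u j c]) * (uGame G k t l).length := by
  rw [cnt_eq_sum, length_uGame, uGame, sum_map_flatMap]
  simp only [sum_uBlock, sum_map_mul_left']
  rw [sum_tuples, ← Fintype.card_mul_expect, Fintype.card_fun, Fintype.card_fin,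
    ← Fintype.expect_equiv (Equiv.curry (Fin k) (Fin t) (Fin l.length))
      (fun u => acc G F fun j c => l[u (j, c)])
      (fun u => acc G F fun j c => l[u j c]) fun _ => rfl]
  push_cast
  ring

theorem uGame_ne_nil (G : Gadget s m n) {l : List (Eq3 ℕ)} (h : l ≠ []) : uGame G k t l ≠ [] := by
  rw [← List.length_pos_iff, length_uGame]
  exact Nat.mul_pos Fintype.card_pos (Nat.pow_pos (List.length_pos_iff.2 h))

theorem uGame_bij (G : Gadget s m n) (l : List (Eq3 ℕ)) :
    ∀ e ∈ uGame G k t l, Function.Bijective e.2.2 := by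
  intro e he
  simp only [uGame, uBlock, List.mem_flatMap, List.mem_map] at he
  obtain ⟨T, -, r, -, rfl⟩ := he
  exact (Equiv.addRight r.2.2.2.2).bijective

theorem PT_uvar (i : Ix k t) :
    PT ∅ fun T : Fin k × Fin t → Eq3 ℕ => uvar (fun j c => T (j, c)) i := by
  rcases i with _ | ⟨j, c, p⟩
  · exact PT.const 0
  · have h : PT ∅ fun T : Fin k × Fin t → Eq3 ℕ => T (j, c) := PT.funAt PT.id _
    fin_cases p
    · exact h.fst
    · exact h.snd.fst
    · exact h.snd.snd.fst

theorem PT_name {M : (Fin k × Fin t → Eq3 ℕ) → Ix k t → Vec m} (hM : PT ∅ M) :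
    PT ∅ fun T : Fin k × Fin t → Eq3 ℕ => name (fun j c => T (j, c)) (M T) :=
  hM.pair (PT.funMk fun i => PT.ite (PT.eqConst (PT.funAt hM i) 0) (PT.const none)
    (PT.some (PT_uvar i)))

theorem PT_shift (X : Ix k t → Vec m) (h : Fin k → Fin t → Vec m) (w : Vec m) :
    PT ∅ fun T : Fin k × Fin t → Eq3 ℕ => X + shift (fun j c => T (j, c)) h w := by
  have h1 : PT ∅ fun (T : Fin k × Fin t → Eq3 ℕ) (p : Fin k × Fin t) => (T p).2.2.2 :=
    PT.funMk fun p => (PT.funAt PT.id p).snd.snd.snd
  refine (PT.finComp (fun b : Fin k × Fin t → Bool =>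
    X + shift (fun j c => (0, 0, 0, b (j, c))) h w) h1).congr fun T => ?_
  congr 1

theorem PT_uGame (G : Gadget s m n) : PT ∅ (uGame G k t) :=
  PT.flatMap (f := fun _ T => uBlock G T) (PT_tuples _) (PT.comp (PT.mapConst _ fun r _ =>
    (PT_name (PT.const r.1)).pair ((PT_name (PT_shift _ _ _)).pair (PT.const _))) PT.snd')

/-- The reduction, given bounds for the acceptance probability. -/
theorem red_uGame (G : Gadget s m n) (k t : ℕ) {c γ c' δ : ℝ}
    (h1 : ∀ (N : ℕ) (_ : Nonempty (Fin N)) (eq : Fin N → Eq3 ℕ) (σ : ℕ → Bool),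
      c ≤ (𝔼 e, if satLin (eq e) σ = true then (1 : ℝ) else 0) →
      ∃ F : Name k t (Vec m) → Vec s,
        c' ≤ 𝔼 u : Fin k → Fin t → Fin N, acc G F (fun j c => eq (u j c)))
    (h2 : ∀ (N : ℕ) (_ : Nonempty (Fin N)) (eq : Fin N → Eq3 ℕ), Tagged eq γ →
      ∀ F : Name k t (Vec m) → Vec s,
        𝔼 u : Fin k → Fin t → Fin N, acc G F (fun j c => eq (u j c)) ≤ δ) :
    Red (TagP c γ) (GapU (Name k t (Vec m)) (Vec s) c' δ) := by
  refine ⟨uGame G k t, PT_uGame G, fun l hl => ⟨uGame_bij G l, uGame_ne_nil G hl.1, ?_⟩,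
    fun l hl => ⟨uGame_bij G l, uGame_ne_nil G hl.1, fun F => ?_⟩⟩
  · obtain ⟨σ, hσ⟩ := hl.2
    have hl0 : 0 < l.length := List.length_pos_iff.2 hl.1
    obtain ⟨F, hF⟩ := h1 l.length ⟨⟨0, hl0⟩⟩ (fun i => l[i]) σ (by
      rw [Fintype.expect_eq_sum_div_card, Fintype.card_fin,
        le_div_iff₀ (by exact_mod_cast hl0), ← sum_map_eq_sum_fin l
          (fun e => if satLin e σ = true then (1 : ℝ) else 0), ← cnt_eq_sum]
      exact hσ)
    refine ⟨F, ?_⟩
    rw [cnt_uGame]
    exact mul_le_mul_of_nonneg_right hF (Nat.cast_nonneg _)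
  · rw [cnt_uGame]
    exact mul_le_mul_of_nonneg_right
      (h2 l.length ⟨⟨0, List.length_pos_iff.2 hl.1⟩⟩ (fun i => l[i]) hl.2 F) (Nat.cast_nonneg _)

end Vale.Agent.P325
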