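import Vale.Agent.Lib.PCP.Fourier

/-!
The covering lemma: changing one random block of a long uniformly random tuple by a random map is
hardly noticed.
-/

namespace Vale.Agent.P325

open Finset
open scoped BigOperators

section

variable {J B : Type*} [Fintype J] [DecidableEq J] [Fintype B]

/-- Resampling one coordinate. -/
theorem expect_update [Nonempty B] (Φ : (J → B) → ℝ) (j : J) :
    𝔼 x, 𝔼 b, Φ (Function.update x j b) = 𝔼 x, Φ x := by
  have h1 : 𝔼 x, 𝔼 b, Φ (Function.update x j b) =
      𝔼 p : (J → B) × B, Φ (Function.update p.1 j p.2) := by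
    rw [← univ_product_univ, expect_product]
  have h2 : 𝔼 x, Φ x = 𝔼 p : (J → B) × B, Φ p.1 := by
    rw [← univ_product_univ, expect_product]
    simp only [Fintype.expect_const]
  rw [h1, h2]
  let e : (J → B) × B ≃ (J → B) × B :=
    { toFun := fun p => (Function.update p.1 j p.2, p.1 j)
      invFun := fun p => (Function.update p.1 j p.2, p.1 j)
      left_inv := fun p => by simp
      right_inv := fun p => by simp }
  exact Fintype.expect_equiv e _ _ fun _ => rfl

theorem expect_coord [Nonempty B] (u : B → ℝ) (j : J) : 𝔼 x : J → B, u (x j) = 𝔼 b, u b := by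
  rw [← expect_update (fun x => u (x j)) j]
  simp only [Function.update_self, Fintype.expect_const]

/-- Second moment of an average of independent centred variables. -/
theorem expect_sq_avg [Nonempty J] [Nonempty B] (u : B → ℝ) (hu : 𝔼 b, u b = 0) :
    𝔼 x : J → B, (𝔼 j, u (x j)) ^ 2 = (𝔼 b, u b ^ 2) / Fintype.card J := by
  have h1 : ∀ j j' : J, 𝔼 x : J → B, u (x j) * u (x j') = if j = j' then 𝔼 b, u b ^ 2 else 0 := by
    intro j j'
    split_ifs with h
    · subst h
      simp only [← sq]
      exact expect_coord (fun b => u b ^ 2) j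
    · rw [← expect_update (fun x => u (x j) * u (x j')) j]
      simp only [Function.update_self, Function.update_of_ne (Ne.symm h), ← expect_mul, hu,
        zero_mul, Fintype.expect_const]
  simp only [sq (𝔼 j, _), Fintype.expect_mul_expect]
  rw [expect_comm]
  have h2 : ∀ j : J, 𝔼 x : J → B, 𝔼 j', u (x j) * u (x j') =
      (𝔼 b, u b ^ 2) / Fintype.card J := by
    intro j
    rw [expect_comm]
    simp only [h1]
    rw [Fintype.expect_eq_sum_div_card, sum_ite_eq]
    simp
  simp only [h2, Fintype.expect_const]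

/-- The covering lemma. -/
theorem cover_sq {P : Type*} [Fintype P] [Nonempty P] [Nonempty J] [Nonempty B] (φ : P → B → B)
    (Y : (J → B) → ℝ) (hY : ∀ x, |Y x| ≤ 1) :
    ((𝔼 j, 𝔼 p, 𝔼 x : J → B, Y (Function.update x j (φ p (x j)))) - 𝔼 x, Y x) ^ 2 ≤
      (Fintype.card B : ℝ) / Fintype.card J := by
  classical
  set N : ℝ := (Fintype.card B : ℝ) with hN
  have hN0 : 0 < N := by rw [hN]; exact_mod_cast Fintype.card_pos
  set w : B → ℝ := fun b => N * 𝔼 p, 𝔼 b', if φ p b' = b then (1 : ℝ) else 0 with hw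
  have key : ∀ g : B → ℝ, 𝔼 p, 𝔼 b', g (φ p b') = 𝔼 b, w b * g b := by
    intro g
    have h1 : ∀ b, w b * g b = 𝔼 p, 𝔼 b', N * if φ p b' = b then g b else 0 := by
      intro b
      simp only [hw, mul_assoc, expect_mul, mul_expect, ite_mul, one_mul, zero_mul]
    simp only [h1]
    symm
    rw [expect_comm]
    refine expect_congr rfl fun p _ => ?_
    rw [expect_comm]
    refine expect_congr rfl fun b' _ => ?_
    rw [Fintype.expect_eq_sum_div_card, ← mul_sum, sum_ite_eq, if_pos (mem_univ _), ← hN]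
    field_simp
  have w0 : ∀ b, 0 ≤ w b := fun b => mul_nonneg hN0.le
    (expect_nonneg fun p _ => expect_nonneg fun b' _ => by split_ifs <;> norm_num)
  have w1 : ∀ b, w b ≤ N := fun b => mul_le_of_le_one_right hN0.le
    (expect_le univ_nonempty fun p _ => expect_le univ_nonempty fun b' _ => by
      split_ifs <;> norm_num)
  have wm : 𝔼 b, w b = 1 := by
    have := key fun _ => 1
    simpa only [Fintype.expect_const, mul_one] using this.symm
  have h1 : ∀ j, 𝔼 p, 𝔼 x : J → B, Y (Function.update x j (φ p (x j))) =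
      𝔼 x : J → B, w (x j) * Y x := by
    intro j
    rw [← expect_update (fun x => w (x j) * Y x) j]
    simp only [Function.update_self]
    have h2 : ∀ p, 𝔼 x : J → B, Y (Function.update x j (φ p (x j))) =
        𝔼 x : J → B, 𝔼 b', Y (Function.update x j (φ p b')) := by
      intro p
      rw [← expect_update (fun x => Y (Function.update x j (φ p (x j)))) j]
      simp only [Function.update_self, Function.update_idem]
    simp only [h2]
    rw [expect_comm]
    exact expect_congr rfl fun x _ => key fun b => Y (Function.update x j b)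
  have h3 : (𝔼 j, 𝔼 p, 𝔼 x : J → B, Y (Function.update x j (φ p (x j)))) - 𝔼 x, Y x =
      𝔼 x : J → B, (𝔼 j, (w (x j) - 1)) * Y x := by
    simp only [h1]
    rw [expect_comm, ← expect_sub_distrib]
    refine expect_congr rfl fun x _ => ?_
    rw [expect_sub_distrib, Fintype.expect_const, sub_mul, one_mul, expect_mul]
  rw [h3]
  refine (expect_mul_sq_le_sq_mul_sq _ _ _).trans ?_
  rw [expect_sq_avg (fun b => w b - 1) (by rw [expect_sub_distrib, wm]; simp)]
  have h4 : 𝔼 x, Y x ^ 2 ≤ 1 :=
    expect_le univ_nonempty fun x _ => (sq_le_one_iff_abs_le_one _).2 (hY x)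
  have h5 : 𝔼 b, (w b - 1) ^ 2 ≤ N := by
    calc 𝔼 b, (w b - 1) ^ 2 ≤ 𝔼 b, ((N - 2) * w b + 1) :=
          expect_le_expect fun b _ => by nlinarith [w0 b, w1 b]
      _ = N - 1 := by
          rw [expect_add_distrib, ← mul_expect, wm, Fintype.expect_const]; ring
      _ ≤ N := by linarith
  have h6 : 0 ≤ (𝔼 b, (w b - 1) ^ 2) / (Fintype.card J : ℝ) :=
    div_nonneg (expect_nonneg fun b _ => sq_nonneg _) (Nat.cast_nonneg _)
  calc _ ≤ (𝔼 b, (w b - 1) ^ 2) / (Fintype.card J : ℝ) := mul_le_of_le_one_right h6 h4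
    _ ≤ _ := div_le_div_of_nonneg_right h5 (Nat.cast_nonneg _)

/-- The covering lemma, one sided form. -/
theorem cover_le {P : Type*} [Fintype P] [Nonempty P] [Nonempty J] [Nonempty B] (φ : P → B → B)
    (Y : (J → B) → ℝ) (hY : ∀ x, |Y x| ≤ 1) {d : ℝ} (hd0 : 0 ≤ d)
    (hd : (Fintype.card B : ℝ) ≤ d ^ 2 * Fintype.card J) :
    𝔼 x, Y x ≤ (𝔼 j, 𝔼 p, 𝔼 x : J → B, Y (Function.update x j (φ p (x j)))) + d := by
  have h1 := cover_sq φ Y hY
  have hJ : (0 : ℝ) < Fintype.card J := by exact_mod_cast Fintype.card_pos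
  have h2 := h1.trans ((div_le_iff₀ hJ).2 hd)
  have h3 := abs_le_of_sq_le_sq' h2 hd0
  linarith [h3.1]

end

end Vale.Agent.P325
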