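import Vale.Agent.Lib.PCP.Rep.GenMain
import Mathlib.Algebra.Order.BigOperators.Expect

/-!
Parallel repetition for projection games given by a uniformly random edge, with a fractional
strategy of the player with the small alphabet.
-/

namespace Vale.Agent.P325

open Finset Vale.Agent.Lib.PCP.Rep
open scoped BigOperators

/-- The value of a weighted game whose edges are uniformly distributed. -/
theorem val_eq_of_edge {U D V A B : Type} [Fintype U] [DecidableEq U] [Fintype D] [DecidableEq B]
    (G : WG U D V A B) (qq : D → U) (c : ℝ)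
    (h : ∀ u i, G.ν u * G.p u i = if qq i = u then c else 0) (g : U → B) (f : V → A) :
    G.val g f = c * ∑ i, if G.proj (qq i) i (f (G.nbr (qq i) i)) = g (qq i) then (1 : ℝ) else 0 := by
  simp only [WG.val, mul_sum, ← mul_assoc, h]
  rw [sum_comm]
  refine sum_congr rfl fun i _ => ?_
  simp only [ite_mul, zero_mul]
  rw [sum_ite_eq, if_pos (mem_univ _)]

/-- Rounding of a fractional strategy. -/
theorem exists_round_fin {Ω Q B : Type*} [Fintype Ω] [Fintype B] [DecidableEq B] [Nonempty B]
    (q : Ω → Q) (r : Ω → B) (w : Q → B → ℝ) (w0 : ∀ x b, 0 ≤ w x b) (w1 : ∀ x, ∑ b, w x b ≤ 1) :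
    ∃ g : Q → B, ∑ ω, w (q ω) (r ω) ≤ ∑ ω, if r ω = g (q ω) then (1 : ℝ) else 0 := by
  classical
  set W : Q → B → ℝ := fun x b => ∑ ω, if q ω = x ∧ r ω = b then 1 else 0 with hW
  have W0 : ∀ x b, 0 ≤ W x b := fun x b => sum_nonneg fun ω _ => by split_ifs <;> norm_num
  have hg := fun x => Finite.exists_max (W x)
  choose g hg using hg
  refine ⟨g, ?_⟩
  have key : ∀ p : Q → B → ℝ,
      ∑ ω, p (q ω) (r ω) = ∑ x ∈ univ.image q, ∑ b, p x b * W x b := by
    intro p
    simp only [hW, mul_sum]
    symm
    calc ∑ x ∈ univ.image q, ∑ b, ∑ ω, p x b * (if q ω = x ∧ r ω = b then (1 : ℝ) else 0)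
        = ∑ x ∈ univ.image q, ∑ ω, ∑ b, p x b * (if q ω = x ∧ r ω = b then (1 : ℝ) else 0) :=
          sum_congr rfl fun x _ => sum_comm
      _ = ∑ ω, ∑ x ∈ univ.image q, ∑ b, p x b * (if q ω = x ∧ r ω = b then (1 : ℝ) else 0) :=
          sum_comm
      _ = _ := by
          refine sum_congr rfl fun ω _ => ?_
          simp only [ite_and, mul_ite, mul_one, mul_zero]
          rw [sum_eq_single (q ω)]
          · simp
          · intro x _ hx
            simp [Ne.symm hx]
          · intro h
            exact absurd (mem_image_of_mem q (mem_univ ω)) h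
  rw [key w, key fun x b => if b = g x then 1 else 0]
  refine sum_le_sum fun x _ => ?_
  calc ∑ b, w x b * W x b ≤ ∑ b, w x b * W x (g x) :=
        sum_le_sum fun b _ => mul_le_mul_of_nonneg_left (hg x b) (w0 x b)
    _ ≤ W x (g x) := by
        rw [← sum_mul]
        exact mul_le_of_le_one_left (W0 _ _) (w1 x)
    _ = _ := by simp

/-- Parallel repetition for a game given by a uniformly random edge `e`: the first player gets
`v e` and answers in `A`, the second player gets `q e` and answers in `B`. -/
theorem rep_edge {E Q W A B T : Type} [Fintype E] [Nonempty E] [Fintype W] [Fintype A] [Nonempty A]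
    [Fintype B] [DecidableEq B] [Nonempty B] [Fintype T] [DecidableEq T] (q : E → Q) (v : E → W)
    (π : E → A → B) {ε : ℝ} (h0 : 0 ≤ ε) (h1 : ε ≤ 1)
    (hs : ∀ (g : Q → B) (f : W → A), 𝔼 e, (if π e (f (v e)) = g (q e) then (1 : ℝ) else 0) ≤ 1 - ε)
    (f : (T → W) → T → A) (w : (T → Q) → (T → B) → ℝ) (w0 : ∀ x b, 0 ≤ w x b)
    (w1 : ∀ x, ∑ b, w x b ≤ 1) :
    (𝔼 e : T → E, w (fun t => q (e t)) fun t => π (e t) (f (fun s => v (e s)) t)) ^ 2 ≤
      (1 - ε ^ 2 / 10) ^ Fintype.card T := by
  classical
  obtain ⟨g, hg⟩ := exists_round_fin (fun e : T → E => fun t => q (e t))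
    (fun e => fun t => π (e t) (f (fun s => v (e s)) t)) w w0 w1
  set N : ℝ := (Fintype.card E : ℝ) with hN
  have hN0 : 0 < N := by rw [hN]; exact_mod_cast Fintype.card_pos
  let U := {u : Q // u ∈ univ.image q}
  let _ : Fintype U := FinsetCoe.fintype _
  let qq : E → U := fun e => ⟨q e, mem_image_of_mem q (mem_univ e)⟩
  let n : U → ℝ := fun u => ∑ e, if qq e = u then 1 else 0
  have n0 : ∀ u, 0 < n u := by
    rintro ⟨u, hu⟩
    obtain ⟨e, -, rfl⟩ := mem_image.1 hu
    refine lt_of_lt_of_le one_pos ?_
    have := single_le_sum (f := fun e' => if qq e' = qq e then (1 : ℝ) else 0)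
      (fun e' _ => by split_ifs <;> norm_num) (mem_univ e)
    simpa using this
  let G : WG U E W A B :=
    { ν := fun u => n u / N
      p := fun u i => if qq i = u then 1 / n u else 0
      nbr := fun _ i => v i
      proj := fun _ i => π i }
  have hG : G.WF :=
    { ν0 := fun u => div_nonneg (n0 u).le hN0.le
      ν1 := by
        show ∑ u, n u / N ≤ 1
        rw [← sum_div, div_le_one hN0]
        simp only [n]
        rw [sum_comm]
        have : ∀ y, (∑ x, if qq y = x then (1 : ℝ) else 0) = 1 := fun y => by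
          rw [sum_ite_eq, if_pos (mem_univ _)]
        simp only [this]
        simp [hN]
      p0 := fun u i => by
        show 0 ≤ if qq i = u then 1 / n u else 0
        split_ifs
        · exact div_nonneg zero_le_one (n0 u).le
        · exact le_rfl
      p1 := fun u => by
        show ∑ i, (if qq i = u then 1 / n u else 0) ≤ 1
        have : ∀ i, (if qq i = u then 1 / n u else 0) = (if qq i = u then (1 : ℝ) else 0) / n u := by
          intro i
          split_ifs <;> simp
        simp only [this]
        rw [← sum_div]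
        exact div_self_le_one _ }
  have hνp : ∀ u i, G.ν u * G.p u i = if qq i = u then 1 / N else 0 := by
    intro u i
    show n u / N * (if qq i = u then 1 / n u else 0) = _
    have := (n0 u).ne'
    split_ifs
    · field_simp
    · simp
  have hval : ∀ g' f', G.val g' f' ≤ 1 - ε := by
    intro g' f'
    rw [val_eq_of_edge G qq _ hνp]
    have := hs (fun x => if h : x ∈ univ.image q then g' ⟨x, h⟩ else Classical.arbitrary B) f'
    rw [Fintype.expect_eq_sum_div_card, ← hN, div_eq_inv_mul, ← one_div] at this
    refine le_trans (le_of_eq ?_) this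
    congr 1
    refine sum_congr rfl fun e _ => ?_
    rw [dif_pos (mem_image_of_mem q (mem_univ e))]
  have hpi := WG.val_pi (fun _ : T => G) (fun _ => ε) (fun _ => hG) (fun _ => h0) (fun _ => h1)
    (fun _ => hval) (fun u => g fun t => (u t).1) f
  rw [val_eq_of_edge _ (fun (i : T → E) t => qq (i t)) ((1 / N) ^ Fintype.card T)] at hpi
  · rw [prod_const, card_univ] at hpi
    refine le_trans ?_ hpi
    refine pow_le_pow_left₀ (expect_nonneg fun e _ => w0 _ _) ?_ 2
    rw [Fintype.expect_eq_sum_div_card, Fintype.card_fun, div_eq_inv_mul]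
    push_cast
    rw [← hN, one_div, inv_pow]
    exact mul_le_mul_of_nonneg_left hg (by positivity)
  · intro u i
    show (∏ t, G.ν (u t)) * (∏ t, G.p (u t) (i t)) = _
    rw [← prod_mul_distrib]
    simp only [hνp]
    split_ifs with h
    · subst h
      simp
    · obtain ⟨t, ht⟩ := Function.ne_iff.1 h
      exact prod_eq_zero (mem_univ t) (if_neg ht)

end Vale.Agent.P325
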