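import Vale.Agent.P325.Core
import Vale.Agent.P325.Cover
import Vale.Agent.P325.RepEdge

/-!
The decoding lemma: large Fourier coefficients at solutions of the equations give a strategy in
the repeated equation versus variable game.
-/

namespace Vale.Agent.P325

open Finset Vale.Agent.Lib.PCP
open scoped BigOperators

section CV

variable {E Var : Type} [Fintype E] [Nonempty E]

/-- The value at the position `p` of the solution of `x + y + z = b` with `x`, `y` given. -/
def solAt (b : ZMod 2) (p : Fin 3) (a : ZMod 2 × ZMod 2) : ZMod 2 := ![a.1, a.2, a.1 + a.2 + b] p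

theorem solAt_eq {b : ZMod 2} {x : Fin 3 → ZMod 2} (h : x 0 + x 1 + x 2 = b) (p : Fin 3) :
    solAt b p (x 0, x 1) = x p := by
  subst h
  fin_cases p
  · rfl
  · rfl
  · show x 0 + x 1 + (x 0 + x 1 + x 2) = x 2
    rw [← add_assoc, f2_add_self, zero_add]

omit [Nonempty E] in
/-- The value of the equation versus variable game. -/
theorem cv_val (var : E → Fin 3 → Var) (rhs : E → ZMod 2) {γ : ℝ}
    (hfar : ∀ σ : Fin 3 → Var → ZMod 2,
      𝔼 e, (if σ 0 (var e 0) + σ 1 (var e 1) + σ 2 (var e 2) = rhs e then (1 : ℝ) else 0) ≤ 1 - γ)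
    [Nonempty E] (g : Fin 3 × Var → ZMod 2) (f : E → ZMod 2 × ZMod 2) :
    𝔼 e : E × Fin 3, (if solAt (rhs e.1) e.2 (f e.1) = g (e.2, var e.1 e.2) then (1 : ℝ) else 0) ≤
      1 - γ / 3 := by
  have h1 := hfar fun p y => g (p, y)
  rw [← univ_product_univ, expect_product]
  calc _ ≤ 𝔼 e, (2 / 3 + 1 / 3 * if g (0, var e 0) + g (1, var e 1) + g (2, var e 2) = rhs e
        then (1 : ℝ) else 0) := by
        refine expect_le_expect fun e _ => ?_
        rw [Fintype.expect_eq_sum_div_card, Fin.sum_univ_three]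
        simp only [solAt, Fintype.card_fin, Matrix.cons_val_zero, Matrix.cons_val_one,
          Matrix.cons_val]
        have key : ∀ (P Q R S : Prop) [Decidable P] [Decidable Q] [Decidable R] [Decidable S],
            (P → Q → R → S) → (((if P then (1 : ℝ) else 0) +
            if Q then 1 else 0) + if R then 1 else 0) / ((3 : ℕ) : ℝ) ≤
            2 / 3 + 1 / 3 * if S then 1 else 0 := by
          intro P Q R S _ _ _ _ h
          by_cases h1 : P <;> by_cases h2 : Q <;> by_cases h3 : R <;> by_cases h4 : S <;>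
            first
            | exact absurd (h h1 h2 h3) h4
            | (simp only [h1, h2, h3, h4, if_true, if_false]; norm_num)
        have key2 : ∀ x y z b u v : ZMod 2, u = x → v = y → u + v + b = z → x + y + z = b := by
          decide
        exact key _ _ _ _ (key2 _ _ _ _ _ _)
    _ ≤ 1 - γ / 3 := by
        rw [expect_add_distrib, ← mul_expect, Fintype.expect_const]
        linarith

end CV

section Decode

variable {E Var V J T : Type} [Fintype E] [Nonempty E] [Fintype J] [DecidableEq J] [Nonempty J]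
  [Fintype T] [DecidableEq T] [AddCommGroup V] [Module (ZMod 2) V] [Fintype V]

/-- The block `j` is set to zero. -/
def zeroB (j : J) (M : Option (J × T × Fin 3) → V) : Option (J × T × Fin 3) → V
  | none => M none
  | some q => if q.1 = j then 0 else M (some q)

/-- In the block `j` only the positions given by `p` are kept. -/
def maskB (j : J) (p : T → Fin 3) (l : Option (J × T × Fin 3) → ZMod 2) :
    Option (J × T × Fin 3) → ZMod 2
  | none => l none
  | some q => if q.1 = j ∧ q.2.2 ≠ p q.2.1 then 0 else l (some q)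

omit [Nonempty J] [DecidableEq T] in
theorem chi_maskB (j : J) (p : T → Fin 3) (z l : Option (J × T × Fin 3) → ZMod 2) :
    chi z (maskB j p l) = chi (maskB j p z) l := by
  simp only [chi, dotProduct]
  congr 1
  refine sum_congr rfl fun i _ => ?_
  cases i with
  | none => rfl
  | some q =>
    simp only [maskB]
    split_ifs <;> simp

/-- Splitting into blocks. -/
def blocks : (V × ZMod 2) × (J → T × Fin 3 → V × ZMod 2) ≃
    (Option (J × T × Fin 3) → V) × (Option (J × T × Fin 3) → ZMod 2) where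
  toFun r := (fun i => i.elim r.1.1 fun q => (r.2 q.1 q.2).1,
    fun i => i.elim r.1.2 fun q => (r.2 q.1 q.2).2)
  invFun r := ((r.1 none, r.2 none), fun j i => (r.1 (some (j, i)), r.2 (some (j, i))))
  left_inv _ := rfl
  right_inv r := by
    refine Prod.ext ?_ ?_ <;> funext i <;> cases i <;> rfl

omit [Fintype J] [DecidableEq J] [Nonempty J] [Fintype T] [DecidableEq T] [AddCommGroup V]
  [Module (ZMod 2) V] [Fintype V] in
theorem blocks_fst (r : (V × ZMod 2) × (J → T × Fin 3 → V × ZMod 2)) (q : J × T × Fin 3) :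
    (blocks r).1 (some q) = (r.2 q.1 q.2).1 := rfl

omit [Fintype J] [DecidableEq J] [Nonempty J] [Fintype T] [DecidableEq T] [AddCommGroup V]
  [Module (ZMod 2) V] [Fintype V] in
theorem blocks_snd (r : (V × ZMod 2) × (J → T × Fin 3 → V × ZMod 2)) (q : J × T × Fin 3) :
    (blocks r).2 (some q) = (r.2 q.1 q.2).2 := rfl

omit [Module (ZMod 2) V] in
theorem cover_blocks (Y : (Option (J × T × Fin 3) → V) → (Option (J × T × Fin 3) → ZMod 2) → ℝ)
    (hY : ∀ M l, |Y M l| ≤ 1) {d : ℝ} (hd0 : 0 ≤ d)
    (hd : ((Fintype.card V : ℝ) * 2) ^ (Fintype.card T * 3) ≤ d ^ 2 * Fintype.card J) :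
    𝔼 M, 𝔼 l, Y M l ≤
      (𝔼 j, 𝔼 p : T → Fin 3, 𝔼 M, 𝔼 l, Y (zeroB j M) (maskB j p l)) + d := by
  classical
  have key : ∀ Φ : (Option (J × T × Fin 3) → V) → (Option (J × T × Fin 3) → ZMod 2) → ℝ,
      𝔼 M, 𝔼 l, Φ M l = 𝔼 r : V × ZMod 2, 𝔼 x : J → T × Fin 3 → V × ZMod 2,
        Φ (blocks (r, x)).1 (blocks (r, x)).2 := by
    intro Φ
    rw [← expect_product', ← expect_product', univ_product_univ, univ_product_univ]
    exact (Fintype.expect_equiv blocks _ _ fun _ => rfl).symm
  let φ : (T → Fin 3) → (T × Fin 3 → V × ZMod 2) → T × Fin 3 → V × ZMod 2 :=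
    fun p b i => (0, if i.2 ≠ p i.1 then 0 else (b i).2)
  have h1 : ∀ (r : V × ZMod 2) (x : J → T × Fin 3 → V × ZMod 2) (j : J) (p : T → Fin 3),
      blocks (r, Function.update x j (φ p (x j))) =
        (zeroB j (blocks (r, x)).1, maskB j p (blocks (r, x)).2) := by
    intro r x j p
    refine Prod.ext ?_ ?_ <;> funext i <;> cases i with
    | none => rfl
    | some q =>
      obtain ⟨j', i⟩ := q
      by_cases h : j' = j
      · subst h
        simp [blocks_fst, blocks_snd, zeroB, maskB, φ]
      · simp [blocks_fst, blocks_snd, zeroB, maskB, h]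
  have h2 : ∀ r : V × ZMod 2, 𝔼 x : J → T × Fin 3 → V × ZMod 2,
      Y (blocks (r, x)).1 (blocks (r, x)).2 ≤ (𝔼 j, 𝔼 p : T → Fin 3,
        𝔼 x : J → T × Fin 3 → V × ZMod 2,
          Y (zeroB j (blocks (r, x)).1) (maskB j p (blocks (r, x)).2)) + d := by
    intro r
    have := cover_le φ (fun x : J → T × Fin 3 → V × ZMod 2 =>
      Y (blocks (r, x)).1 (blocks (r, x)).2) (fun x => hY _ _) hd0 (by
        rw [Fintype.card_fun, Fintype.card_prod, Fintype.card_prod, ZMod.card, Fintype.card_fin]
        push_cast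
        exact hd)
    simpa only [h1] using this
  rw [key]
  refine (expect_le_expect fun r _ => h2 r).trans (le_of_eq ?_)
  rw [expect_add_distrib, Fintype.expect_const]
  congr 1
  rw [expect_comm]
  refine expect_congr rfl fun j _ => ?_
  rw [expect_comm]
  refine expect_congr rfl fun p _ => ?_
  exact (key fun M l => Y (zeroB j M) (maskB j p l)).symm

omit [Nonempty J] [Fintype V] in
/-- The strategy in the repeated game. -/
theorem decode_game (var : E → Fin 3 → Var) (rhs : E → ZMod 2) {γ d : ℝ} (hγ0 : 0 ≤ γ)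
    (hγ1 : γ ≤ 1) (hfar : ∀ σ : Fin 3 → Var → ZMod 2,
      𝔼 e, (if σ 0 (var e 0) + σ 1 (var e 1) + σ 2 (var e 2) = rhs e then (1 : ℝ) else 0) ≤ 1 - γ)
    (hd0 : 0 ≤ d) (hd : (1 - (γ / 3) ^ 2 / 10) ^ Fintype.card T ≤ d ^ 4)
    (Ψ : (J → T → E) → (Option (J × T × Fin 3) → V) → ℝ) (hΨ : ∀ U M, |Ψ U M| ≤ 1)
    (hloc : ∀ U U' M, (∀ j t p, M (some (j, t, p)) ≠ 0 → var (U j t) p = var (U' j t) p) →
      Ψ U M = Ψ U' M) (a : V) (z : (J → T → E) → Option (J × T × Fin 3) → ZMod 2)
    (hz : ∀ U j t, z U (some (j, t, 0)) + z U (some (j, t, 1)) + z U (some (j, t, 2)) =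
      rhs (U j t)) (j : J) (M : Option (J × T × Fin 3) → V) :
    𝔼 U, 𝔼 p : T → Fin 3, |hat (fun l => Ψ U (zeroB j M + fun i => maskB j p l i • a))
      (maskB j p (z U))| ≤ d := by
  classical
  rw [← expect_update _ j]
  refine expect_le univ_nonempty fun U _ => ?_
  let rep : Fin 3 × Var → E := fun x => Classical.epsilon fun e => var e x.1 = x.2
  have hrep : ∀ e p, var (rep (p, var e p)) p = var e p := fun e p =>
    Classical.epsilon_spec (p := fun e' => var e' p = var e p) ⟨e, rfl⟩
  let h : (T → Fin 3 × Var) → (Option (J × T × Fin 3) → ZMod 2) → ℝ := fun x l =>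
    Ψ (Function.update U j fun t => rep (x t))
      (zeroB j M + fun i => maskB j (fun t => (x t).1) l i • a)
  let w : (T → Fin 3 × Var) → (T → ZMod 2) → ℝ := fun x b =>
    ∑ z', if (fun t => z' (some (j, t, (x t).1))) = b then hat (h x) z' ^ 2 else 0
  have w0 : ∀ x b, 0 ≤ w x b := fun x b => sum_nonneg fun z' _ => by
    split_ifs
    · exact sq_nonneg _
    · exact le_rfl
  have w1 : ∀ x, ∑ b, w x b ≤ 1 := fun x => by
    simp only [w]
    rw [sum_comm]
    simp only [sum_ite_eq, mem_univ, if_true]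
    exact parseval_le_one fun l => hΨ _ _
  have h1 := rep_edge (T := T) (fun e : E × Fin 3 => (e.2, var e.1 e.2)) (fun e => e.1)
    (fun e => solAt (rhs e.1) e.2) (ε := γ / 3) (by linarith) (by linarith)
    (cv_val var rhs hfar) (fun e t => (z (Function.update U j e) (some (j, t, 0)),
      z (Function.update U j e) (some (j, t, 1)))) w w0 w1
  have h2 : ∀ (e : T → E) (p : T → Fin 3),
      hat (fun l => Ψ (Function.update U j e) (zeroB j M + fun i => maskB j p l i • a))
        (maskB j p (z (Function.update U j e))) ^ 2 ≤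
      w (fun t => (p t, var (e t) (p t))) fun t => solAt (rhs (e t)) (p t)
        (z (Function.update U j e) (some (j, t, 0)),
          z (Function.update U j e) (some (j, t, 1))) := by
    intro e p
    have e1 : (fun l => Ψ (Function.update U j e) (zeroB j M + fun i => maskB j p l i • a)) =
        h fun t => (p t, var (e t) (p t)) := by
      funext l
      refine hloc _ _ _ fun j' t p' hne => ?_
      by_cases hj : j' = j
      · subst hj
        by_cases hp : p' = p t
        · subst hp
          simp only [Function.update_self, hrep]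
        · exact absurd (by simp [zeroB, maskB, hp]) hne
      · simp only [Function.update_of_ne hj]
    rw [e1]
    refine le_trans (le_of_eq ?_) (single_le_sum (f := fun z' =>
      if (fun t => z' (some (j, t, p t))) = (fun t => solAt (rhs (e t)) (p t)
        (z (Function.update U j e) (some (j, t, 0)), z (Function.update U j e) (some (j, t, 1))))
      then hat (h fun t => (p t, var (e t) (p t))) z' ^ 2 else 0) (fun z' _ => by
        split_ifs
        · exact sq_nonneg _
        · exact le_rfl) (mem_univ (maskB j p (z (Function.update U j e)))))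
    rw [if_pos]
    funext t
    have := hz (Function.update U j e) j t
    rw [Function.update_self] at this
    rw [solAt_eq (x := fun p' => z (Function.update U j e) (some (j, t, p'))) this]
    simp [maskB]
  have h3 : 𝔼 e : T → E, 𝔼 p : T → Fin 3,
      hat (fun l => Ψ (Function.update U j e) (zeroB j M + fun i => maskB j p l i • a))
        (maskB j p (z (Function.update U j e))) ^ 2 ≤ d ^ 2 := by
    refine (expect_le_expect fun e _ => expect_le_expect fun p _ => h2 e p).trans ?_
    refine le_trans (le_of_eq ?_) (abs_le_of_sq_le_sq' (h1.trans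
      (hd.trans (le_of_eq (by ring : d ^ 4 = (d ^ 2) ^ 2)))) (sq_nonneg d)).2
    rw [← expect_product', univ_product_univ]
    exact (Fintype.expect_equiv (Equiv.arrowProdEquivProdArrow T (fun _ => E) fun _ => Fin 3)
      _ _ fun _ => rfl).symm
  rw [← expect_product', univ_product_univ] at h3 ⊢
  refine (abs_le_of_sq_le_sq' (le_trans ?_ h3) hd0).2
  have := expect_mul_sq_le_sq_mul_sq (univ : Finset ((T → E) × (T → Fin 3))) (fun _ => (1 : ℝ))
    fun r => |hat (fun l => Ψ (Function.update U j r.1)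
      (zeroB j M + fun i => maskB j r.2 l i • a)) (maskB j r.2 (z (Function.update U j r.1)))|
  simpa only [one_mul, one_pow, Fintype.expect_const, sq_abs] using this

/-- The decoding lemma. -/
theorem decoding (var : E → Fin 3 → Var) (rhs : E → ZMod 2) {γ d₀ d₁ : ℝ} (hγ0 : 0 ≤ γ)
    (hγ1 : γ ≤ 1) (hfar : ∀ σ : Fin 3 → Var → ZMod 2,
      𝔼 e, (if σ 0 (var e 0) + σ 1 (var e 1) + σ 2 (var e 2) = rhs e then (1 : ℝ) else 0) ≤ 1 - γ)
    (hd0 : 0 ≤ d₀) (h0 : (1 - (γ / 3) ^ 2 / 10) ^ Fintype.card T ≤ d₀ ^ 4) (hd1 : 0 ≤ d₁)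
    (h1 : ((Fintype.card V : ℝ) * 2) ^ (Fintype.card T * 3) ≤ d₁ ^ 2 * Fintype.card J)
    (Ψ : (J → T → E) → (Option (J × T × Fin 3) → V) → ℝ) (hΨ : ∀ U M, |Ψ U M| ≤ 1)
    (hloc : ∀ U U' M, (∀ j t p, M (some (j, t, p)) ≠ 0 → var (U j t) p = var (U' j t) p) →
      Ψ U M = Ψ U' M) (a : V)
    (z : (J → T → E) → (Option (J × T × Fin 3) → V) → Option (J × T × Fin 3) → ZMod 2)
    (hz : ∀ U M j t, z U M (some (j, t, 0)) + z U M (some (j, t, 1)) + z U M (some (j, t, 2)) =
      rhs (U j t)) :
    𝔼 U, 𝔼 M, |hat (fun l => Ψ U (M + fun i => l i • a)) (z U M)| ≤ d₀ + d₁ := by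
  classical
  let s : (J → T → E) → (Option (J × T × Fin 3) → V) → ℝ := fun U M =>
    if 0 ≤ hat (fun l => Ψ U (M + fun i => l i • a)) (z U M) then 1 else -1
  have hs : ∀ U M, |s U M| = 1 := fun U M => by
    simp only [s]
    split_ifs <;> simp
  let Y : (J → T → E) → (Option (J × T × Fin 3) → V) → (Option (J × T × Fin 3) → ZMod 2) → ℝ :=
    fun U M l => s U M * (Ψ U (M + fun i => l i • a) * chi (z U M) l)
  have hY : ∀ U M l, |Y U M l| ≤ 1 := fun U M l => by
    simp only [Y, abs_mul, hs, abs_chi, one_mul, mul_one]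
    exact hΨ _ _
  have e1 : ∀ U M, |hat (fun l => Ψ U (M + fun i => l i • a)) (z U M)| = 𝔼 l, Y U M l := by
    intro U M
    simp only [Y, ← mul_expect]
    show _ = s U M * hat (fun l => Ψ U (M + fun i => l i • a)) (z U M)
    simp only [s]
    split_ifs with h
    · rw [abs_of_nonneg h, one_mul]
    · rw [abs_of_neg (not_le.1 h), neg_one_mul]
  have e2 : ∀ U j (p : T → Fin 3) M, 𝔼 l, Y U (zeroB j M) (maskB j p l) ≤
      |hat (fun l => Ψ U (zeroB j M + fun i => maskB j p l i • a))
        (maskB j p (z U (zeroB j M)))| := by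
    intro U j p M
    simp only [Y, ← mul_expect, chi_maskB]
    refine (le_abs_self _).trans (le_of_eq ?_)
    rw [abs_mul, hs, one_mul]
    rfl
  simp only [e1]
  refine (expect_le_expect fun U _ => cover_blocks (Y U) (hY U) hd1 h1).trans ?_
  rw [expect_add_distrib, Fintype.expect_const]
  refine add_le_add ?_ le_rfl
  rw [expect_comm]
  refine expect_le univ_nonempty fun j _ => ?_
  calc 𝔼 U, 𝔼 p : T → Fin 3, 𝔼 M, 𝔼 l, Y U (zeroB j M) (maskB j p l)
      ≤ 𝔼 U, 𝔼 p : T → Fin 3, 𝔼 M, |hat (fun l => Ψ U (zeroB j M + fun i => maskB j p l i • a))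
          (maskB j p (z U (zeroB j M)))| :=
        expect_le_expect fun U _ => expect_le_expect fun p _ => expect_le_expect fun M _ =>
          e2 U j p M
    _ = 𝔼 M, 𝔼 U, 𝔼 p : T → Fin 3, |hat (fun l => Ψ U (zeroB j M + fun i => maskB j p l i • a))
          (maskB j p (z U (zeroB j M)))| := by
        symm
        rw [expect_comm]
        exact expect_congr rfl fun U _ => expect_comm _ _ _
    _ ≤ d₀ := expect_le univ_nonempty fun M _ =>
        decode_game var rhs hγ0 hγ1 hfar hd0 h0 Ψ hΨ hloc a (fun U => z U (zeroB j M))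
          (fun U => hz U _) j M

end Decode

/-- The decoding lemma for the vertices of the reduction. -/
theorem decode {E V : Type} [Fintype E] [Nonempty E] [AddCommGroup V] [Module (ZMod 2) V]
    [Fintype V] [DecidableEq V] {k t : ℕ} (eq : E → Eq3 ℕ) {γ θ : ℝ} (hγ0 : 0 ≤ γ) (hγ1 : γ ≤ 1)
    (hθ : 0 < θ) (hT : Tagged eq γ) (h1 : (1 - (γ / 3) ^ 2 / 10) ^ t ≤ θ ^ 4)
    (h2 : (2 * Fintype.card V : ℝ) ^ (3 * t) ≤ θ ^ 2 * k) (a : V) (ψ : Name k t V → ℝ)
    (hψ : ∀ x, |ψ x| ≤ 1) (z : (Fin k → Fin t → E) → (Ix k t → V) → Ix k t → ZMod 2)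
    (hz : ∀ u M, Valid (fun j c => eq (u j c)) (z u M)) :
    𝔼 u : Fin k → Fin t → E, 𝔼 M : Ix k t → V,
      |hat (fun l => ψ (name (fun j c => eq (u j c)) (M + tens a l))) (z u M)| ≤ 2 * θ := by
  have hk : Nonempty (Fin k) := by
    rcases Nat.eq_zero_or_pos k with rfl | hk
    · have hV : (0 : ℝ) < Fintype.card V := by exact_mod_cast Fintype.card_pos
      have : (0 : ℝ) < (2 * Fintype.card V : ℝ) ^ (3 * t) := by positivity
      simp only [Nat.cast_zero, mul_zero] at h2
      linarith
    · exact ⟨⟨0, hk⟩⟩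
  rw [two_mul]
  refine decoding (fun e => evar (eq e)) (fun e => erhs (eq e)) hγ0 hγ1 hT hθ.le
    (by rwa [Fintype.card_fin]) hθ.le
    (by rwa [Fintype.card_fin, Fintype.card_fin, mul_comm _ (2 : ℝ), mul_comm t])
    (fun u M => ψ (name (fun j c => eq (u j c)) M)) (fun _ _ => hψ _) (fun u u' M h => ?_) a z
    fun u M => (hz u M).2
  congr 1
  refine Prod.ext rfl (funext fun i => ?_)
  simp only [name]
  split_ifs with hi
  · rfl
  · rcases i with _ | ⟨j, c, p⟩
    · rfl
    · exact congrArg some (h j c p hi)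

end Vale.Agent.P325
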