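import Vale.Agent.P325.Core

/-!
The inverse theorem for the rank one noise test: a folded family of densities which passes the
test has large Fourier coefficients on many lines.
-/

namespace Vale.Agent.P325

open Finset Vale.Agent.Lib.PCP
open scoped BigOperators

/-- Translation invariance of the uniform distribution on a finite group. -/
theorem expect_shiftG {G : Type} [AddGroup G] [Fintype G] (φ : G → ℝ) (z : G) :
    𝔼 x, φ (x + z) = 𝔼 x, φ x :=
  Fintype.expect_equiv (Equiv.addRight z) _ _ fun _ => rfl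

theorem sum_shift {G : Type} [AddGroup G] [Fintype G] (φ : G → ℝ) (z : G) :
    ∑ x, φ (x + z) = ∑ x, φ x :=
  Fintype.sum_equiv (Equiv.addRight z) _ _ fun _ => rfl

theorem add_self_two {V : Type} [AddCommGroup V] [Module (ZMod 2) V] (v : V) : v + v = 0 := by
  have h : ((1 : ZMod 2) + 1) • v = 0 := by rw [f2_add_self, zero_smul]
  rwa [add_smul, one_smul] at h

section Tens

variable {ι V : Type} [AddCommGroup V] [Module (ZMod 2) V]

theorem tens_add (a : V) (x y : ι → ZMod 2) : tens a (x + y) = tens a x + tens a y := by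
  funext j; simp [tens, add_smul]

theorem add_tens (a b : V) (x : ι → ZMod 2) : tens (a + b) x = tens a x + tens b x := by
  funext j; simp [tens, smul_add]

theorem mat_add_self (M : ι → V) : M + M = 0 := by
  funext j; exact add_self_two _

end Tens

/-! ### The two counting lemmas -/

section Count

variable {K : Type} [AddCommGroup K] [Fintype K]

/-- Lower bound for the number of additive triples. -/
theorem schur_lower (P : K → K → ℝ) (h0 : ∀ u v, 0 ≤ P u v) (h1 : ∀ u v, P u v ≤ 1)
    (hs : ∀ u v, P u v = P v u) (ha : ∀ u v, P (u + v) v = P u v) {ν : ℝ} (hν : 0 < ν) :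
    ν ^ 3 * ((𝔼 u, 𝔼 v, P u v) ^ 2 - 3 * ν * 𝔼 u, 𝔼 v, P u v) ≤
      𝔼 u, 𝔼 v, (𝔼 w, P u w) * (𝔼 w, P v w) * 𝔼 w, P (u + v) w := by
  classical
  set p : K → ℝ := fun u => 𝔼 w, P u w with hp
  have p0 : ∀ u, 0 ≤ p u := fun u => expect_nonneg fun w _ => h0 u w
  set b : K → ℝ := fun u => if p u < ν then 1 else 0 with hb
  have hpt : ∀ u v, ν ^ 3 * (P u v - P u v * b u - P v u * b v - P (u + v) v * b (u + v)) ≤
      p u * p v * p (u + v) := by
    intro u v
    rw [ha u v, hs v u]
    have e0 := h0 u v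
    have e1 := h1 u v
    have e2 : 0 ≤ p u * p v * p (u + v) := mul_nonneg (mul_nonneg (p0 _) (p0 _)) (p0 _)
    have e3 : 0 < ν ^ 3 := by positivity
    by_cases c1 : p u < ν
    · refine le_trans (mul_nonpos_of_nonneg_of_nonpos e3.le ?_) e2
      simp only [hb, if_pos c1]
      split_ifs <;> linarith
    by_cases c2 : p v < ν
    · refine le_trans (mul_nonpos_of_nonneg_of_nonpos e3.le ?_) e2
      simp only [hb, if_pos c2]
      split_ifs <;> linarith
    by_cases c3 : p (u + v) < ν
    · refine le_trans (mul_nonpos_of_nonneg_of_nonpos e3.le ?_) e2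
      simp only [hb, if_pos c3]
      split_ifs <;> linarith
    simp only [hb, if_neg c1, if_neg c2, if_neg c3, mul_zero, sub_zero]
    push Not at c1 c2 c3
    calc ν ^ 3 * P u v ≤ ν ^ 3 * 1 := by gcongr
      _ = ν * ν * ν := by ring
      _ ≤ p u * p v * p (u + v) := by gcongr <;> first | exact p0 _ | exact mul_nonneg (p0 _) (p0 _)
  have hsm : 𝔼 u, 𝔼 v, P u v * b u ≤ ν := by
    refine expect_le univ_nonempty fun u _ => ?_
    rw [← expect_mul]
    change p u * b u ≤ ν
    simp only [hb]
    split_ifs with c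
    · linarith
    · linarith
  have hsm2 : 𝔼 u, 𝔼 v, P v u * b v ≤ ν := by rw [expect_comm]; exact hsm
  have hsm3 : 𝔼 u, 𝔼 v, P (u + v) v * b (u + v) ≤ ν := by
    rw [expect_comm]
    simp only [fun v => expect_shiftG (fun u => P u v * b u) v]
    rw [expect_comm]; exact hsm
  have hmain : ν ^ 3 * ((𝔼 u, 𝔼 v, P u v) - 3 * ν) ≤ 𝔼 u, 𝔼 v, p u * p v * p (u + v) := by
    refine le_trans ?_ (expect_le_expect fun u _ => expect_le_expect fun v _ => hpt u v)
    simp only [← mul_expect, expect_sub_distrib]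
    refine mul_le_mul_of_nonneg_left ?_ (by positivity)
    linarith
  have hq0 : 0 ≤ 𝔼 u, 𝔼 v, P u v := expect_nonneg fun u _ => p0 u
  have hq1 : 𝔼 u, 𝔼 v, P u v ≤ 1 :=
    expect_le univ_nonempty fun u _ => expect_le univ_nonempty fun v _ => h1 u v
  have hR : 0 ≤ 𝔼 u, 𝔼 v, p u * p v * p (u + v) := expect_nonneg fun u _ =>
    expect_nonneg fun v _ => mul_nonneg (mul_nonneg (p0 _) (p0 _)) (p0 _)
  set q := 𝔼 u, 𝔼 v, P u v
  rcases le_total q (3 * ν) with c | c
  · refine le_trans (mul_nonpos_of_nonneg_of_nonpos (by positivity) ?_) hR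
    nlinarith
  · refine le_trans (mul_le_mul_of_nonneg_left ?_ (by positivity)) hmain
    nlinarith

/-- Upper bound for the shifted count. -/
theorem swap_upper (p : K → K → ℝ) (h0 : ∀ a c, 0 ≤ p a c) (h1 : ∀ a, ∑ c, p a c ≤ 1)
    (hi : ∀ a c, p a (c + a) = p a c) {η : ℝ} (hη : 0 < η) :
    𝔼 u, 𝔼 v, ∑ c, p u (c + v) * p v c * p (u + v) c ≤
      2 * η + 1 / (η ^ 2 * Fintype.card K) := by
  classical
  set q : K → ℝ := fun c => 𝔼 a, p a c with hq
  have q0 : ∀ c, 0 ≤ q c := fun c => expect_nonneg fun a _ => h0 a c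
  have q1 : ∑ c, q c ≤ 1 := by
    simp only [hq]
    rw [← expect_sum_comm]
    exact expect_le univ_nonempty fun a _ => h1 a
  have p1 : ∀ a c, p a c ≤ 1 := fun a c =>
    (single_le_sum (f := p a) (fun c _ => h0 a c) (mem_univ c)).trans (h1 a)
  set b : K → ℝ := fun c => if q c < η then 1 else 0 with hb
  set d : K → ℝ := fun c => if q c < η then 0 else 1 with hd
  have hpt : ∀ u v c, p u (c + v) * p v c * p (u + v) c ≤
      b c * (p (u + v) c * p v c) + b (c + v) * (p u (c + v) * p v (c + v)) + d c * d (c + v) := by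
    intro u v c
    rw [hi v c]
    have a0 := h0 u (c + v)
    have a1 := p1 u (c + v)
    have b0 := h0 v c
    have b1 := p1 v c
    have c0 := h0 (u + v) c
    have c1 := p1 (u + v) c
    have e1 := mul_nonneg a0 b0
    have e2 := mul_nonneg c0 b0
    have e3 : p u (c + v) * p v c ≤ 1 := mul_le_one₀ a1 b0 b1
    simp only [hb, hd]
    split_ifs <;> nlinarith
  have hb2 : 𝔼 u, 𝔼 v, ∑ c, b c * (p u c * p v c) ≤ η := by
    simp only [expect_sum_comm, ← mul_expect, ← expect_mul]
    calc ∑ c, b c * (q c * q c) ≤ ∑ c, η * q c := sum_le_sum fun c _ => by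
          simp only [hb]
          have := q0 c
          split_ifs with h <;> nlinarith
      _ ≤ η := by rw [← mul_sum]; nlinarith
  have t1 : 𝔼 u, 𝔼 v, ∑ c, b c * (p (u + v) c * p v c) ≤ η := by
    rw [expect_comm]
    simp only [fun v => expect_shiftG (fun u => ∑ c, b c * (p u c * p v c)) v]
    rw [expect_comm]; exact hb2
  have t2 : 𝔼 u, 𝔼 v, ∑ c, b (c + v) * (p u (c + v) * p v (c + v)) ≤ η := by
    simp only [fun u v => sum_shift (fun c => b c * (p u c * p v c)) v]
    exact hb2
  have hK : (0 : ℝ) < Fintype.card K := by exact_mod_cast Fintype.card_pos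
  have t3 : 𝔼 v, ∑ c, d c * d (c + v) ≤ 1 / (η ^ 2 * Fintype.card K) := by
    have e1 : ∀ c, 𝔼 v, d (c + v) = (∑ c, d c) / Fintype.card K := by
      intro c
      simp only [add_comm c]
      rw [expect_shiftG d c, Fintype.expect_eq_sum_div_card]
    simp only [expect_sum_comm, ← mul_expect, e1, ← sum_mul]
    have e2 : η * ∑ c, d c ≤ 1 := by
      rw [mul_sum]
      refine le_trans (sum_le_sum fun c _ => ?_) q1
      simp only [hd]
      have := q0 c
      split_ifs with h
      · linarith
      · linarith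
    have e3 : 0 ≤ ∑ c, d c := sum_nonneg fun c _ => by simp only [hd]; split_ifs <;> norm_num
    rw [← mul_div_assoc, div_le_div_iff₀ hK (by positivity)]
    have e4 : (η * ∑ c, d c) * (η * ∑ c, d c) ≤ 1 := mul_le_one₀ e2 (by positivity) e2
    nlinarith
  refine le_trans (expect_le_expect fun u _ => expect_le_expect fun v _ =>
    sum_le_sum fun c _ => hpt u v c) ?_
  simp only [sum_add_distrib, expect_add_distrib, Fintype.expect_const]
  linarith

end Count

/-! ### Averages over lines -/

section Lines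

variable {ι K V : Type} [Fintype ι] [DecidableEq ι] [AddCommGroup V] [Module (ZMod 2) V]

/-- The average over the line through `M` in direction `a`. -/
noncomputable def lineAv (a : V) (f : (ι → V) → ℝ) (M : ι → V) : ℝ :=
  𝔼 b : ι → ZMod 2, f (M + tens a b)

theorem lineAv_inv (a : V) (f : (ι → V) → ℝ) (M : ι → V) (x : ι → ZMod 2) :
    lineAv a f (M + tens a x) = lineAv a f M := by
  simp only [lineAv, add_assoc, ← tens_add]
  exact expect_add_left (fun b => f (M + tens a b)) x

theorem hat_expect {T : Type} [Fintype T] (φ : T → (ι → ZMod 2) → ℝ) (z : ι → ZMod 2) :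
    hat (fun l => 𝔼 r, φ r l) z = 𝔼 r, hat (φ r) z := by
  simp only [hat, expect_mul]
  rw [expect_comm]

theorem hat_sub (φ ψ : (ι → ZMod 2) → ℝ) (z : ι → ZMod 2) :
    hat (fun l => φ l - ψ l) z = hat φ z - hat ψ z := by
  simp only [hat, sub_mul, expect_sub_distrib]

/-- Three functions which are invariant along three dependent directions. -/
theorem triple_le [Fintype V] (a b : V) (D A B : (ι → V) → ℝ)
    (hD : ∀ M x, D (M + tens a x) = D M) (hA : ∀ M x, A (M + tens b x) = A M)
    (hB : ∀ M x, B (M + tens (a + b) x) = B M) (hA1 : ∀ M, |A M| ≤ 1) (hB1 : ∀ M, |B M| ≤ 1)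
    (β : (ι → V) → ℝ) (hβ : ∀ M z, |hat (fun l => D (M + tens b l)) z| ≤ β M) :
    𝔼 M, D M * A M * B M ≤ 𝔼 M, β M := by
  have e1 : 𝔼 M, D M * A M * B M = 𝔼 x : ι → ZMod 2, 𝔼 y : ι → ZMod 2, 𝔼 M : ι → V,
      B (M + tens b x) * A (M + tens (a + b) y) * D (M + tens b (x + y)) := by
    rw [← Fintype.expect_const (ι := ι → ZMod 2) (𝔼 M, D M * A M * B M)]
    refine expect_congr rfl fun x _ => ?_
    rw [← Fintype.expect_const (ι := ι → ZMod 2) (𝔼 M, D M * A M * B M)]
    refine expect_congr rfl fun y _ => ?_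
    rw [← expect_shiftG _ (tens b x + tens (a + b) y)]
    refine expect_congr rfl fun M _ => ?_
    have d1 : M + (tens b x + tens (a + b) y) = M + tens b (x + y) + tens a y := by
      rw [add_tens, tens_add]; abel
    have d2 : M + (tens b x + tens (a + b) y) = M + tens (a + b) y + tens b x := by abel
    have d3 : M + (tens b x + tens (a + b) y) = M + tens b x + tens (a + b) y := by abel
    have f1 : D (M + (tens b x + tens (a + b) y)) = D (M + tens b (x + y)) := by rw [d1, hD]
    have f2 : A (M + (tens b x + tens (a + b) y)) = A (M + tens (a + b) y) := by rw [d2, hA]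
    have f3 : B (M + (tens b x + tens (a + b) y)) = B (M + tens b x) := by rw [d3, hB]
    rw [f1, f2, f3]; ring
  have e2 : (𝔼 x : ι → ZMod 2, 𝔼 y : ι → ZMod 2, 𝔼 M : ι → V,
      B (M + tens b x) * A (M + tens (a + b) y) * D (M + tens b (x + y))) =
      𝔼 M : ι → V, 𝔼 x : ι → ZMod 2, 𝔼 y : ι → ZMod 2,
      B (M + tens b x) * A (M + tens (a + b) y) * D (M + tens b (x + y)) := by
    rw [expect_comm (s := univ) (t := univ) (ι := ι → V)]
    refine expect_congr rfl fun x _ => ?_
    rw [expect_comm]
  rw [e1, e2]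
  refine expect_le_expect fun M _ => ?_
  rw [expect_blr (fun x => B (M + tens b x)) (fun y => A (M + tens (a + b) y))
    (fun l => D (M + tens b l))]
  have p1 := parseval_le_one (f := fun x => B (M + tens b x)) fun x => hB1 _
  have p2 := parseval_le_one (f := fun y => A (M + tens (a + b) y)) fun x => hA1 _
  have β0 : 0 ≤ β M := (abs_nonneg _).trans (hβ M 0)
  calc _ ≤ ∑ z, (hat (fun x => B (M + tens b x)) z ^ 2 +
        hat (fun y => A (M + tens (a + b) y)) z ^ 2) / 2 * β M := sum_le_sum fun z _ => by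
        refine (le_abs_self _).trans ?_
        rw [abs_mul]
        refine mul_le_mul ?_ (hβ M z) (abs_nonneg _) (by positivity)
        rw [abs_le]
        constructor <;> nlinarith [sq_nonneg (hat (fun x => B (M + tens b x)) z +
          hat (fun y => A (M + tens (a + b) y)) z), sq_nonneg (hat (fun x => B (M + tens b x)) z -
          hat (fun y => A (M + tens (a + b) y)) z)]
    _ ≤ β M := by
        rw [← sum_mul, ← sum_div, sum_add_distrib]
        nlinarith

end Lines

/-- The inverse theorem. -/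
theorem inverse {ι K V : Type} [Fintype ι] [DecidableEq ι] [AddCommGroup K] [Module (ZMod 2) K]
    [Fintype K] [AddCommGroup V] [Module (ZMod 2) V] [Fintype V]
    (κ : K →ₗ[ZMod 2] V) (o : ι → ZMod 2) (f : K → (ι → V) → ℝ) (h0 : ∀ c M, 0 ≤ f c M)
    (h1 : ∀ M, ∑ c, f c M ≤ 1) (hf : ∀ c w M, f (c + w) (M + tens (κ w) o) = f c M)
    (θ : K → K → (ι → V) → ℝ) (hθ0 : ∀ a c M, 0 ≤ θ a c M)
    (hθ : ∀ a c M z, z ⬝ᵥ o = 1 → |hat (fun l => f c (M + tens (κ a) l)) z| ≤ θ a c M)
    {ν η : ℝ} (hν : 0 < ν) (hη : 0 < η) :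
    ν ^ 3 * ((𝔼 M, ∑ c, noiseOp κ (noiseOp κ (f c)) M ^ 2) - 3 * ν) ≤
      2 * η + 1 / (η ^ 2 * Fintype.card K) + 2 * ∑ c, 𝔼 a, 𝔼 M, θ a c M := by
  classical
  have f1 : ∀ c M, f c M ≤ 1 := fun c M =>
    (single_le_sum (f := fun c => f c M) (fun c _ => h0 c M) (mem_univ c)).trans (h1 M)
  set p : K → K → (ι → V) → ℝ := fun a c => lineAv (κ a) (noiseOp κ (f c)) with hp
  have pdef : ∀ a c M, p a c M =
      𝔼 b, 𝔼 v, 𝔼 b', f c (M + tens (κ a) b + tens (κ v) b') := fun a c M => rfl
  have p0 : ∀ a c M, 0 ≤ p a c M := fun a c M => expect_nonneg fun _ _ =>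
    expect_nonneg fun _ _ => expect_nonneg fun _ _ => h0 _ _
  have ps : ∀ a M, ∑ c, p a c M ≤ 1 := fun a M => by
    simp only [pdef, ← expect_sum_comm]
    exact expect_le univ_nonempty fun _ _ => expect_le univ_nonempty fun _ _ =>
      expect_le univ_nonempty fun _ _ => h1 _
  have p1 : ∀ a c M, p a c M ≤ 1 := fun a c M =>
    (single_le_sum (f := fun c => p a c M) (fun c _ => p0 a c M) (mem_univ c)).trans (ps a M)
  have pinv : ∀ a c M x, p a c (M + tens (κ a) x) = p a c M := fun a c M x => lineAv_inv _ _ _ _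
  have pf : ∀ a c w M, p a (c + w) M = p a c (M + tens (κ w) o) := by
    intro a c w M
    simp only [pdef]
    refine expect_congr rfl fun b _ => expect_congr rfl fun v _ => expect_congr rfl fun b' _ => ?_
    rw [← hf c w]
    congr 1
    have := mat_add_self (tens (κ w) o)
    calc M + tens (κ a) b + tens (κ v) b' =
        M + tens (κ a) b + tens (κ v) b' + (tens (κ w) o + tens (κ w) o) := by rw [this, add_zero]
      _ = _ := by abel
  -- lower bound
  have hlow : ∀ c M, ν ^ 3 * (noiseOp κ (noiseOp κ (f c)) M ^ 2 -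
      3 * ν * noiseOp κ (noiseOp κ (f c)) M) ≤ 𝔼 u, 𝔼 v, p u c M * p v c M * p (u + v) c M := by
    intro c M
    set P : K → K → ℝ := fun u v => 𝔼 b, 𝔼 b', f c (M + tens (κ u) b + tens (κ v) b') with hP
    have e1 : ∀ u, p u c M = 𝔼 w, P u w := fun u => by rw [pdef, expect_comm]
    have e2 : noiseOp κ (noiseOp κ (f c)) M = 𝔼 u, 𝔼 v, P u v :=
      expect_congr rfl fun u _ => e1 u
    simp only [e1, e2]
    refine schur_lower P (fun u v => expect_nonneg fun _ _ => expect_nonneg fun _ _ => h0 _ _)
      (fun u v => expect_le univ_nonempty fun _ _ => expect_le univ_nonempty fun _ _ => f1 _ _)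
      (fun u v => ?_) (fun u v => ?_) hν
    · simp only [hP]
      rw [expect_comm]
      simp only [add_right_comm M]
    · simp only [hP]
      refine expect_congr rfl fun b _ => ?_
      rw [← expect_add_left (fun b' => f c (M + tens (κ u) b + tens (κ v) b')) b]
      refine expect_congr rfl fun b' _ => ?_
      rw [map_add, add_tens, tens_add]
      congr 1
      abel
  have hlow2 : ν ^ 3 * ((𝔼 M, ∑ c, noiseOp κ (noiseOp κ (f c)) M ^ 2) - 3 * ν) ≤
      𝔼 M, ∑ c, 𝔼 u, 𝔼 v, p u c M * p v c M * p (u + v) c M := by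
    refine le_trans ?_ (expect_le_expect fun M _ => sum_le_sum fun c _ => hlow c M)
    simp only [← mul_sum, ← mul_expect, sum_sub_distrib, expect_sub_distrib]
    refine mul_le_mul_of_nonneg_left (sub_le_sub_left ?_ _) (by positivity)
    refine mul_le_of_le_one_right (by positivity) (expect_le univ_nonempty fun M _ => ?_)
    change ∑ c, 𝔼 a, p a c M ≤ 1
    rw [← expect_sum_comm]
    exact expect_le univ_nonempty fun a _ => ps a M
  -- upper bound for the shifted count
  have hup : 𝔼 M, ∑ c, 𝔼 u, 𝔼 v, p u (c + v) M * p v c M * p (u + v) c M ≤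
      2 * η + 1 / (η ^ 2 * Fintype.card K) := by
    refine expect_le univ_nonempty fun M _ => ?_
    simp only [← expect_sum_comm]
    exact swap_upper (fun a c => p a c M) (fun a c => p0 a c M) (fun a => ps a M)
      (fun a c => by rw [pf, pinv]) hη
  -- the swap
  have hsw : ∀ c u v, 𝔼 M, (p u c M - p u (c + v) M) * p v c M * p (u + v) c M ≤
      2 * 𝔼 M, θ v c M := by
    intro c u v
    refine (triple_le (κ u) (κ v) (fun M => p u c M - p u (c + v) M) (p v c) (p (u + v) c)
      (fun M x => by simp only [pinv]) (pinv v c) (fun M x => by rw [← map_add, pinv])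
      (fun M => by rw [abs_of_nonneg (p0 _ _ _)]; exact p1 _ _ _)
      (fun M => by rw [abs_of_nonneg (p0 _ _ _)]; exact p1 _ _ _)
      (fun M => 2 * 𝔼 b, 𝔼 w, 𝔼 b', θ v c (M + (tens (κ u) b + tens (κ w) b')))
      (fun M z => ?_)).trans (le_of_eq ?_)
    · have e1 : (fun l => p u c (M + tens (κ v) l) - p u (c + v) (M + tens (κ v) l)) =
          fun l => p u c (M + tens (κ v) l) - p u c (M + tens (κ v) (l + o)) := by
        funext l
        rw [pf, tens_add, add_assoc]
      rw [e1, hat_sub, hat_translate (fun l => p u c (M + tens (κ v) l)) o z, chi]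
      rcases f2_cases (z ⬝ᵥ o) with e | e
      · rw [e, sg_zero, mul_one, sub_self, abs_zero]
        exact mul_nonneg zero_le_two (expect_nonneg fun _ _ => expect_nonneg fun _ _ =>
          expect_nonneg fun _ _ => hθ0 _ _ _)
      · rw [e, sg_one, mul_neg, mul_one, sub_neg_eq_add, ← two_mul, abs_mul, abs_two]
        refine mul_le_mul_of_nonneg_left ?_ zero_le_two
        simp only [pdef]
        rw [hat_expect]
        refine (abs_expect_le _ _).trans (expect_le_expect fun b _ => ?_)
        rw [hat_expect]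
        refine (abs_expect_le _ _).trans (expect_le_expect fun w _ => ?_)
        rw [hat_expect]
        refine (abs_expect_le _ _).trans (expect_le_expect fun b' _ => ?_)
        refine le_trans (le_of_eq ?_) (hθ v c _ z e)
        congr 2
        funext l
        congr 1
        abel
    · rw [← mul_expect]
      congr 1
      rw [expect_comm]
      refine (expect_congr rfl fun b _ => ?_).trans (Fintype.expect_const _)
      rw [expect_comm]
      refine (expect_congr rfl fun w _ => ?_).trans (Fintype.expect_const _)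
      rw [expect_comm]
      refine (expect_congr rfl fun b' _ => ?_).trans (Fintype.expect_const _)
      exact expect_shiftG (θ v c) _
  have hsw2 : (𝔼 M, ∑ c, 𝔼 u, 𝔼 v, p u c M * p v c M * p (u + v) c M) -
      (𝔼 M, ∑ c, 𝔼 u, 𝔼 v, p u (c + v) M * p v c M * p (u + v) c M) ≤
      2 * ∑ c, 𝔼 a, 𝔼 M, θ a c M := by
    simp only [← expect_sub_distrib, ← sum_sub_distrib, ← sub_mul]
    rw [expect_sum_comm, mul_sum]
    refine sum_le_sum fun c _ => ?_
    rw [expect_comm]
    refine expect_le univ_nonempty fun u _ => ?_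
    rw [expect_comm, mul_expect]
    exact expect_le_expect fun v _ => hsw c u v
  linarith

end Vale.Agent.P325
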