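import Vale.Agent.P325.Inverse

/-!
Spectral comparison of two rank one noise operators.
-/

namespace Vale.Agent.P325

open Finset Vale.Agent.Lib.PCP
open scoped BigOperators

variable {ι : Type} {m : ℕ} [Fintype ι] [DecidableEq ι]

/-- The linear map on columns which belongs to a character of the space of matrices. -/
def charMap (α : ι × Fin m → ZMod 2) : Vec m →ₗ[ZMod 2] (ι → ZMod 2) where
  toFun a := fun j => ∑ i, α (j, i) * a i
  map_add' a b := by funext j; simp [mul_add, sum_add_distrib]
  map_smul' c a := by funext j; simp [mul_sum, mul_left_comm]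

omit [DecidableEq ι] in
theorem chi_tens (α : ι × Fin m → ZMod 2) (a : Vec m) (b : ι → ZMod 2) :
    chi α (Function.uncurry (tens a b)) = chi (charMap α a) b := by
  simp only [chi, dotProduct, Fintype.sum_prod_type, charMap, LinearMap.coe_mk, AddHom.coe_mk,
    Function.uncurry, tens, Pi.smul_apply, smul_eq_mul, sum_mul]
  congr 1
  exact sum_congr rfl fun j _ => sum_congr rfl fun i _ => by ring

/-- The eigenvalues of the noise operator. -/
theorem hat_noiseOp {N : Type} [Fintype N] (ν : N → Vec m) (f : (ι → Vec m) → ℝ)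
    (α : ι × Fin m → ZMod 2) :
    hat (fun x => noiseOp ν f (Function.curry x)) α =
      (𝔼 r, if charMap α (ν r) = 0 then (1 : ℝ) else 0) *
        hat (fun x => f (Function.curry x)) α := by
  simp only [noiseOp]
  rw [hat_expect, expect_mul]
  refine expect_congr rfl fun r _ => ?_
  rw [hat_expect, ← expect_chi, expect_mul]
  refine expect_congr rfl fun b _ => ?_
  rw [← chi_tens, mul_comm, ← hat_translate]
  rfl

theorem expect_curry (φ : (ι → Vec m) → ℝ) :
    𝔼 M, φ M = 𝔼 x : ι × Fin m → ZMod 2, φ (Function.curry x) :=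
  (Fintype.expect_equiv (Equiv.curry ι (Fin m) (ZMod 2)) _ _ fun _ => rfl).symm

/-- Comparison of the quadratic forms. -/
theorem spectral {N N' : Type} [Fintype N] [Fintype N']
    (μ : N → Vec m) (κ : N' → Vec m) {α β : ℝ}
    (h : ∀ S : Vec m →ₗ[ZMod 2] (ι → ZMod 2), (𝔼 r, if S (μ r) = 0 then (1 : ℝ) else 0) ≤
      α + β * (𝔼 a, if S (κ a) = 0 then (1 : ℝ) else 0) ^ 4) (f : (ι → Vec m) → ℝ) :
    𝔼 M, f M * noiseOp μ f M ≤
      α * (𝔼 M, f M ^ 2) + β * 𝔼 M, noiseOp κ (noiseOp κ f) M ^ 2 := by
  rw [expect_curry, expect_curry (fun M => f M ^ 2),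
    expect_curry (fun M => noiseOp κ (noiseOp κ f) M ^ 2),
    plancherel (fun x => f (Function.curry x)) (fun x => noiseOp μ f (Function.curry x)),
    ← parseval (fun x => f (Function.curry x)),
    ← parseval (fun x => noiseOp κ (noiseOp κ f) (Function.curry x)), mul_sum, mul_sum,
    ← sum_add_distrib]
  refine sum_le_sum fun z _ => ?_
  rw [hat_noiseOp, hat_noiseOp, hat_noiseOp]
  have := mul_le_mul_of_nonneg_right (h (charMap z)) (sq_nonneg (hat (fun x => f (Function.curry x)) z))
  refine le_trans (le_of_eq (by ring)) (this.trans (le_of_eq (by ring)))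

end Vale.Agent.P325
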