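import Vale.Agent.P325.SoundAux
import Vale.Agent.P325.Inverse
import Vale.Agent.P325.Spectral
import Vale.Agent.P325.Decode

/-!
Soundness of the reduction: combination of the spectral comparison, the inverse theorem and the
decoding lemma.
-/

namespace Vale.Agent.P325

open Finset Vale.Agent.Lib.PCP
open scoped BigOperators

section

variable {s m n k t : ℕ} (G : Gadget s m n) (F : Name k t (Vec m) → Vec s)
  (U : Fin k → Fin t → Eq3 ℕ)

theorem exists_best (c : Vec s) (a : Vec m) (M : Ix k t → Vec m) :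
    ∃ z, Valid U z ∧ ∀ z', Valid U z' →
      |hat (fun l => indL F U c (M + tens a l)) z'| ≤
        |hat (fun l => indL F U c (M + tens a l)) z| := by
  classical
  obtain ⟨z₀, hz₀⟩ := exists_valid U
  obtain ⟨z, hz, h⟩ := Finset.exists_max_image (univ.filter fun z => Valid U z)
    (fun z => |hat (fun l => indL F U c (M + tens a l)) z|) ⟨z₀, by simpa using hz₀⟩
  exact ⟨z, by simpa using hz, fun z' hz' => h z' (by simpa using hz')⟩

/-- The valid point with the largest Fourier coefficient. -/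
noncomputable def best (c : Vec s) (a : Vec m) (M : Ix k t → Vec m) : Ix k t → ZMod 2 :=
  (exists_best F U c a M).choose

theorem best_valid (c : Vec s) (a : Vec m) (M : Ix k t → Vec m) : Valid U (best F U c a M) :=
  (exists_best F U c a M).choose_spec.1

/-- The largest Fourier coefficient at a valid point. -/
noncomputable def tau (c : Vec s) (a : Vec m) (M : Ix k t → Vec m) : ℝ :=
  |hat (fun l => indL F U c (M + tens a l)) (best F U c a M)|

theorem le_tau (c : Vec s) (a : Vec m) (M : Ix k t → Vec m) {z : Ix k t → ZMod 2}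
    (hz : Valid U z) : |hat (fun l => indL F U c (M + tens a l)) z| ≤ tau F U c a M :=
  (exists_best F U c a M).choose_spec.2 z hz

theorem abs_hat_foldL_le (c : Vec s) (a : Vec m) (M : Ix k t → Vec m) {z : Ix k t → ZMod 2}
    (h1 : z none = 1) : |hat (fun l => foldL G F U c (M + tens a l)) z| ≤
      𝔼 h : Fin k → Fin t → Vec m, 𝔼 w : Vec s, tau F U (c + w) a (M + shift U h (G.κ w)) := by
  by_cases hz : Valid U z
  · rw [hat_foldL]
    refine (Finset.abs_expect_le _ _).trans (Finset.expect_le_expect fun h _ => ?_)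
    refine (Finset.abs_expect_le _ _).trans (Finset.expect_le_expect fun w _ => ?_)
    exact le_tau F U _ _ _ hz
  · rw [hat_foldL_eq_zero G F U c a M h1 hz, abs_zero]
    exact Finset.expect_nonneg fun _ _ => Finset.expect_nonneg fun _ _ => abs_nonneg _

theorem detect_le {r : ℕ} {δ : ℝ} (hδ : 0 ≤ δ) (hG : G.Detect r δ) {ι : Type} [Fintype ι]
    [DecidableEq ι] (S : Vec m →ₗ[ZMod 2] (ι → ZMod 2)) :
    (𝔼 i, if S (G.μ i) = 0 then (1 : ℝ) else 0) ≤
      δ + 16 ^ r * (𝔼 a, if S (G.κ a) = 0 then (1 : ℝ) else 0) ^ 4 := by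
  by_cases h : (𝔼 a, if S (G.κ a) = 0 then (1 : ℝ) else 0) ≤ (1 / 2) ^ r
  · have := hG ι S h
    have h2 : (0 : ℝ) ≤ 16 ^ r * (𝔼 a, if S (G.κ a) = 0 then (1 : ℝ) else 0) ^ 4 := by positivity
    linarith
  · have h3 : ((1 / 2 : ℝ) ^ r) ^ 4 ≤ (𝔼 a, if S (G.κ a) = 0 then (1 : ℝ) else 0) ^ 4 :=
      pow_le_pow_left₀ (by positivity) (not_le.1 h).le 4
    have h4 : (16 : ℝ) ^ r * ((1 / 2 : ℝ) ^ r) ^ 4 = 1 := by
      rw [← pow_mul, mul_comm r 4, pow_mul, ← mul_pow]; norm_num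
    have h5 : (𝔼 i, if S (G.μ i) = 0 then (1 : ℝ) else 0) ≤ 1 := by
      refine (Finset.expect_le_expect (g := fun _ => (1 : ℝ)) fun i _ => ?_).trans (by simp)
      split_ifs <;> norm_num
    have h6 := mul_le_mul_of_nonneg_left h3 (by positivity : (0 : ℝ) ≤ 16 ^ r)
    linarith

/-- Soundness for one tuple of equations. -/
theorem acc_le {r : ℕ} {δ ν η : ℝ} (hδ : 0 ≤ δ) (hν : 0 < ν) (hη : 0 < η) (hG : G.Detect r δ) :
    acc G F U ≤ δ + 16 ^ r * (3 * ν + (2 * η + 1 / (η ^ 2 * 2 ^ s) +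
      2 * ∑ c, 𝔼 a, 𝔼 M, tau F U c (G.κ a) M) / ν ^ 3) := by
  have h1 : acc G F U ≤ δ * (∑ c, 𝔼 M, foldL G F U c M ^ 2) +
      16 ^ r * ∑ c, 𝔼 M, noiseOp G.κ (noiseOp G.κ (foldL G F U c)) M ^ 2 := by
    rw [acc_eq, Finset.mul_sum, Finset.mul_sum, ← Finset.sum_add_distrib]
    exact Finset.sum_le_sum fun c _ => spectral G.μ G.κ (detect_le G hδ hG) _
  have h2 : ∑ c, 𝔼 M, foldL G F U c M ^ 2 ≤ 1 := by
    rw [← Finset.expect_sum_comm]
    refine (Finset.expect_le_expect (g := fun _ => (1 : ℝ)) fun M _ => ?_).trans (by simp)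
    rw [← sum_foldL G F U M]
    refine Finset.sum_le_sum fun c _ => ?_
    have := foldL_nonneg G F U c M
    have := foldL_le_one G F U c M
    nlinarith
  have h3 := inverse G.κ (oneCol k t) (foldL G F U) (foldL_nonneg G F U)
    (fun M => (sum_foldL G F U M).le)
    (fun c w M => by rw [tens_oneCol U, foldL_shift])
    (fun a c M => 𝔼 h : Fin k → Fin t → Vec m, 𝔼 w : Vec s,
      tau F U (c + w) (G.κ a) (M + shift U h (G.κ w)))
    (fun a c M => Finset.expect_nonneg fun _ _ => Finset.expect_nonneg fun _ _ => abs_nonneg _)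
    (fun a c M z hz => abs_hat_foldL_le G F U c _ M (by rwa [dot_oneCol] at hz)) hν hη
  have h4 : ∑ c, 𝔼 a, 𝔼 M, (𝔼 h : Fin k → Fin t → Vec m, 𝔼 w : Vec s,
      tau F U (c + w) (G.κ a) (M + shift U h (G.κ w))) =
      ∑ c, 𝔼 a, 𝔼 M, tau F U c (G.κ a) M := by
    rw [← Finset.expect_sum_comm, ← Finset.expect_sum_comm]
    exact Finset.expect_congr rfl fun a _ =>
      sum_expect_shift G U (fun c M => tau F U c (G.κ a) M)
  rw [h4, Finset.expect_sum_comm] at h3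
  have hc : (Fintype.card (Vec s) : ℝ) = 2 ^ s := by simp [Vec]
  rw [hc] at h3
  have h5 : ∑ c, 𝔼 M, noiseOp G.κ (noiseOp G.κ (foldL G F U c)) M ^ 2 ≤
      3 * ν + (2 * η + 1 / (η ^ 2 * 2 ^ s) +
        2 * ∑ c, 𝔼 a, 𝔼 M, tau F U c (G.κ a) M) / ν ^ 3 := by
    rw [← sub_le_iff_le_add', le_div_iff₀ (by positivity), mul_comm]
    exact h3
  have h6 := mul_le_mul_of_nonneg_left h5 (by positivity : (0 : ℝ) ≤ 16 ^ r)
  have h7 := mul_le_mul_of_nonneg_left h2 hδ
  linarith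

end

theorem sound_core {E : Type} [Fintype E] [Nonempty E] {s m n k t r : ℕ} (G : Gadget s m n)
    (eq : E → Eq3 ℕ) {γ θ δ ν η : ℝ} (hγ0 : 0 ≤ γ) (hγ1 : γ ≤ 1) (hθ : 0 < θ) (hδ : 0 ≤ δ)
    (hν : 0 < ν) (hη : 0 < η) (hG : G.Detect r δ) (hT : Tagged eq γ)
    (h1 : (1 - (γ / 3) ^ 2 / 10) ^ t ≤ θ ^ 4) (h2 : (2 * 2 ^ m : ℝ) ^ (3 * t) ≤ θ ^ 2 * k)
    (F : Name k t (Vec m) → Vec s) :
    𝔼 u : Fin k → Fin t → E, acc G F (fun j c => eq (u j c)) ≤
      δ + 16 ^ r * (3 * ν + (2 * η + 1 / (η ^ 2 * 2 ^ s) + 4 * 2 ^ s * θ) / ν ^ 3) := by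
  have hc : (Fintype.card (Vec m) : ℝ) = 2 ^ m := by simp [Vec]
  have hd : ∀ (c : Vec s) (a : Vec s), 𝔼 u : Fin k → Fin t → E, 𝔼 M : Ix k t → Vec m,
      tau F (fun j c => eq (u j c)) c (G.κ a) M ≤ 2 * θ := fun c a =>
    decode eq hγ0 hγ1 hθ hT h1 (by rwa [hc]) (G.κ a) (fun x => if F x = c then 1 else 0)
      (fun x => by split_ifs <;> simp)
      (fun u M => best F (fun j c => eq (u j c)) c (G.κ a) M) (fun u M => best_valid _ _ _ _ _)
  have h3 : 𝔼 u : Fin k → Fin t → E, ∑ c, 𝔼 a, 𝔼 M,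
      tau F (fun j c => eq (u j c)) c (G.κ a) M ≤ 2 * 2 ^ s * θ := by
    rw [Finset.expect_sum_comm]
    calc _ ≤ ∑ _c : Vec s, 2 * θ := by
          refine Finset.sum_le_sum fun c _ => ?_
          rw [Finset.expect_comm]
          exact (Finset.expect_le_expect (g := fun _ => 2 * θ) fun a _ => hd c a).trans (by simp)
      _ = _ := by simp [Vec]; ring
  refine (Finset.expect_le_expect fun u _ => acc_le G F _ hδ hν hη hG).trans ?_
  have h4 : ∀ x : ℝ, δ + 16 ^ r * (3 * ν + (2 * η + 1 / (η ^ 2 * 2 ^ s) + 2 * x) / ν ^ 3) =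
      (δ + 16 ^ r * (3 * ν + (2 * η + 1 / (η ^ 2 * 2 ^ s)) / ν ^ 3)) +
        (16 ^ r * 2 / ν ^ 3) * x := fun x => by ring
  simp only [h4]
  rw [Finset.expect_add_distrib, Fintype.expect_const, ← Finset.mul_expect]
  have h5 := mul_le_mul_of_nonneg_left h3 (by positivity : (0 : ℝ) ≤ 16 ^ r * 2 / ν ^ 3)
  have h6 := h4 (2 * 2 ^ s * θ)
  have h7 : (4 : ℝ) * 2 ^ s * θ = 2 * (2 * 2 ^ s * θ) := by ring
  rw [h7, h6]
  linarith

end Vale.Agent.P325
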