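import Vale.Agent.P325.Complete
import Vale.Agent.P325.Reduce
import Vale.Agent.P325.Sound
import Vale.Agent.P325.CookLevin
import Vale.Agent.Lib.PCP.LabelCover
import Vale.Agent.Lib.PCP.Hastad

/-!
Choice of the parameters: the gadget theorem implies the Unique Games Conjecture.
-/

namespace Vale.Agent.P325

open Finset Vale.Agent.Lib.PCP Vale.Agent.Lib.PolyTime
open scoped BigOperators

/-- The gadget theorem, as a statement. -/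
def GadgetThm : Prop := ∀ ε δ : ℝ, 0 < ε → 0 < δ → ∃ r : ℕ, ∀ s₀ : ℕ, ∃ (s m n : ℕ)
  (G : Gadget s m n), s₀ ≤ s ∧ G.Stable ε ∧ G.Detect r δ

theorem hard_tagP {η : ℝ} (h0 : 0 < η) (h1 : η ≤ 1 / 4) : Hard (TagP (1 - η) (1 / 4 / 3)) :=
  ((hastad_of_label_cover hard_label_cover h0).gap_mono le_rfl (by linarith)).red
    (red_rot (1 - η) (1 / 4))

/-- Unique games whose constraints are produced by the reduction are hard. The alphabet is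
`Vec s` with `s` as large as desired. -/
theorem hard_uGame (hg : GadgetThm) {ε δ : ℝ} (hε : 0 < ε) (hδ : 0 < δ) (s₁ : ℕ) :
    ∃ s m k t : ℕ, s₁ ≤ s ∧ Hard (GapU (Name k t (Vec m)) (Vec s) (1 - ε) δ) := by
  obtain ⟨r, hr⟩ := hg (ε / 2) (δ / 5) (by positivity) (by positivity)
  obtain ⟨β, hβ⟩ : ∃ β : ℝ, β = δ / (5 * 16 ^ r) := ⟨_, rfl⟩
  have hβ0 : 0 < β := by rw [hβ]; positivity
  obtain ⟨ν, hν⟩ : ∃ ν : ℝ, ν = β / 3 := ⟨_, rfl⟩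
  have hν0 : 0 < ν := by rw [hν]; positivity
  obtain ⟨ζ, hζ⟩ : ∃ ζ : ℝ, ζ = β * ν ^ 3 := ⟨_, rfl⟩
  have hζ0 : 0 < ζ := by rw [hζ]; positivity
  obtain ⟨s₀, hs₀⟩ := pow_unbounded_of_one_lt (1 / ((ζ / 2) ^ 2 * ζ)) (one_lt_two (α := ℝ))
  obtain ⟨s, m, n, G, hs, hG1, hG2⟩ := hr (max s₀ s₁)
  obtain ⟨θ, hθ⟩ : ∃ θ : ℝ, θ = ζ / (4 * 2 ^ s) := ⟨_, rfl⟩
  have hθ0 : 0 < θ := by rw [hθ]; positivity
  obtain ⟨t, ht⟩ := exists_pow_lt_of_lt_one (show 0 < θ ^ 4 by positivity)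
    (show 1 - ((1 : ℝ) / 4 / 3 / 3) ^ 2 / 10 < 1 by norm_num)
  obtain ⟨k, hk⟩ := exists_nat_ge ((2 * 2 ^ m : ℝ) ^ (3 * t) / θ ^ 2)
  have hk' : (2 * 2 ^ m : ℝ) ^ (3 * t) ≤ θ ^ 2 * k := by
    rwa [div_le_iff₀' (by positivity)] at hk
  obtain ⟨η, hη⟩ : ∃ η : ℝ, η = min (1 / 4) (ε / (2 * (k * t + 1))) := ⟨_, rfl⟩
  have hη0 : 0 < η := by rw [hη]; positivity
  have hη1 : η ≤ 1 / 4 := hη ▸ min_le_left _ _
  have hη2 : k * t * η ≤ ε / 2 := by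
    have h1 : η ≤ ε / (2 * (k * t + 1)) := hη ▸ min_le_right _ _
    rw [le_div_iff₀ (by positivity)] at h1
    nlinarith
  refine ⟨s, m, k, t, (le_max_right _ _).trans hs,
    (hard_tagP hη0 hη1).red (red_uGame G k t ?_ ?_)⟩
  · intro N _ eq σ hσ
    obtain ⟨F, hF⟩ := complete_core (k := k) (t := t) G eq hG1 σ hσ
    exact ⟨F, le_trans (by linarith) hF⟩
  · intro N _ eq hT F
    refine (sound_core G eq (by norm_num) (by norm_num) hθ0 (by positivity) hν0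
      (half_pos hζ0) hG2 hT ht.le hk' F).trans ?_
    have h1 : 1 / ((ζ / 2) ^ 2 * 2 ^ s) ≤ ζ := by
      have h2 : (2 : ℝ) ^ s₀ ≤ 2 ^ s := pow_le_pow_right₀ one_le_two ((le_max_left _ _).trans hs)
      have h3 := hs₀.le.trans h2
      rw [div_le_iff₀ (by positivity)] at h3 ⊢
      linarith
    have h2 : 4 * 2 ^ s * θ = ζ := by rw [hθ]; field_simp
    have h3 : (2 * (ζ / 2) + 1 / ((ζ / 2) ^ 2 * 2 ^ s) + 4 * 2 ^ s * θ) / ν ^ 3 ≤ 3 * β := by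
      rw [div_le_iff₀ (by positivity), h2]
      linarith
    have h4 : (16 : ℝ) ^ r * (4 * β) = 4 * δ / 5 := by rw [hβ]; field_simp
    have h5 : (16 : ℝ) ^ r * (3 * ν + (2 * (ζ / 2) + 1 / ((ζ / 2) ^ 2 * 2 ^ s) +
        4 * 2 ^ s * θ) / ν ^ 3) ≤ 16 ^ r * (4 * β) :=
      mul_le_mul_of_nonneg_left (by linarith) (by positivity)
    linarith

theorem ugc_of_gadget (hg : GadgetThm) (ε δ : ℝ) (hε : 0 < ε) (hδ : 0 < δ) :
    ∃ k : ℕ, 2 ≤ k ∧ GapNPHard k (1 - ε) δ := by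
  obtain ⟨s, m, k, t, hs, h⟩ := hard_uGame hg hε hδ 1
  refine ⟨_, ?_, gapNPHard_of_hard cookLevin h⟩
  have : Fintype.card (Vec s) = 2 ^ s := by simp [Vec]
  rw [this]
  calc 2 = 2 ^ 1 := rfl
    _ ≤ 2 ^ s := Nat.pow_le_pow_right (by norm_num) hs

end Vale.Agent.P325
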