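import Vale.Agent.P325.Core

/-!
Completeness of the reduction.
-/

namespace Vale.Agent.P325

open Finset Vale.Agent.Lib.PCP
open scoped BigOperators

/-- One coordinate of a uniform function is uniform. -/
theorem expect_eval {ι D : Type} [Fintype ι] [DecidableEq ι] [Fintype D] [Nonempty D] (j : ι)
    (φ : D → ℝ) : 𝔼 u : ι → D, φ (u j) = 𝔼 d, φ d := by
  rw [Fintype.expect_equiv (Equiv.funSplitAt j D) (fun u => φ (u j)) (fun p => φ p.1)
    (fun u => rfl), ← univ_product_univ, expect_product]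
  simp only [Fintype.expect_const]

/-- The column assignment given by an assignment of the variables. -/
def zOf {k t : ℕ} (σ : ℕ → Bool) (U : Fin k → Fin t → Eq3 ℕ) : Ix k t → ZMod 2
  | none => 1
  | some i => if σ (uvar U (some i)) = true then 1 else 0

/-- The honest labeling. -/
def honest {s m n k t : ℕ} (G : Gadget s m n) (σ : ℕ → Bool) (x : Name k t (Vec m)) : Vec s :=
  G.C (∑ i, (match i, x.2 i with
    | none, _ => (1 : ZMod 2)
    | some _, none => 0
    | some _, some v => if σ v = true then 1 else 0) • x.1 i)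

theorem honest_name {s m n k t : ℕ} (G : Gadget s m n) (σ : ℕ → Bool)
    (U : Fin k → Fin t → Eq3 ℕ) (M : Ix k t → Vec m) :
    honest G σ (name U M) = G.C (∑ i, zOf σ U i • M i) := by
  unfold honest
  congr 1
  refine Finset.sum_congr rfl fun i _ => ?_
  rcases i with _ | i
  · rfl
  · by_cases h : M (some i) = 0
    · simp [name, h]
    · simp [name, h, zOf]

theorem valid_aux (a b d e : Bool) (h : (Bool.xor (Bool.xor a b) d == e) = true) :
    ((if a = true then (1 : ZMod 2) else 0) + if b = true then 1 else 0) +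
      (if d = true then 1 else 0) = if e = true then 1 else 0 := by
  revert a b d e
  decide

theorem valid_zOf {k t : ℕ} (σ : ℕ → Bool) (U : Fin k → Fin t → Eq3 ℕ)
    (h : ∀ j c, satLin (U j c) σ = true) : Valid U (zOf σ U) :=
  ⟨rfl, fun j c => valid_aux _ _ _ _ (h j c)⟩

theorem sum_smul_shift {k t : ℕ} {V : Type} [AddCommGroup V] [Module (ZMod 2) V]
    {U : Fin k → Fin t → Eq3 ℕ} {z : Ix k t → ZMod 2} (hz : Valid U z) (h : Fin k → Fin t → V)
    (w : V) : ∑ i, z i • shift U h w i = w := by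
  rw [Fintype.sum_option, hz.1, one_smul, Fintype.sum_prod_type]
  simp only [Fintype.sum_prod_type, shift, Fin.sum_univ_three, ← add_smul, hz.2]
  rw [add_assoc, ← Finset.sum_add_distrib]
  simp only [← Finset.sum_add_distrib, ← add_smul, f2_add_self, zero_smul, sum_const_zero,
    add_zero]

theorem expect_ev {ι V : Type} [Fintype ι] [DecidableEq ι] [AddCommGroup V] [Module (ZMod 2) V]
    [Fintype V] (z : ι → ZMod 2) (o : ι) (hz : z o = 1) (φ : V → ℝ) :
    𝔼 M : ι → V, φ (∑ i, z i • M i) = 𝔼 x, φ x := by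
  have h1 : ∀ x : V, 𝔼 M : ι → V, φ (∑ i, z i • M i) =
      𝔼 M : ι → V, φ (∑ i, z i • M i + x) := by
    intro x
    refine (Fintype.expect_equiv (Equiv.addRight (Pi.single o x : ι → V)) _ _ fun M => ?_).symm
    simp only [Equiv.coe_addRight, Pi.add_apply, smul_add, Finset.sum_add_distrib]
    congr 2
    rw [Finset.sum_eq_single o]
    · simp [hz]
    · intro i _ hi
      simp [hi]
    · simp
  calc 𝔼 M : ι → V, φ (∑ i, z i • M i)
      = 𝔼 x : V, 𝔼 M : ι → V, φ (∑ i, z i • M i + x) := by
        rw [← Fintype.expect_const (ι := V) (𝔼 M : ι → V, φ (∑ i, z i • M i))]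
        exact expect_congr rfl fun x _ => h1 x
    _ = 𝔼 M : ι → V, 𝔼 x : V, φ (∑ i, z i • M i + x) := expect_comm _ _ _
    _ = 𝔼 M : ι → V, 𝔼 x : V, φ x := expect_congr rfl fun M _ =>
        Fintype.expect_equiv (Equiv.addLeft _) _ _ fun _ => rfl
    _ = _ := Fintype.expect_const _

theorem acc_nonneg {s m n k t : ℕ} (G : Gadget s m n) (F : Name k t (Vec m) → Vec s)
    (U : Fin k → Fin t → Eq3 ℕ) : 0 ≤ acc G F U :=
  expect_nonneg fun _ _ => expect_nonneg fun _ _ => expect_nonneg fun _ _ =>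
    expect_nonneg fun _ _ => expect_nonneg fun _ _ => by split_ifs <;> norm_num

theorem acc_honest {s m n k t : ℕ} (G : Gadget s m n) {ε : ℝ} (hG : G.Stable ε) (σ : ℕ → Bool)
    (U : Fin k → Fin t → Eq3 ℕ) (h : ∀ j c, satLin (U j c) σ = true) :
    1 - ε ≤ acc G (honest G σ) U := by
  have hz := valid_zOf σ U h
  have h1 : 𝔼 M : Ix k t → Vec m, (fun x : Vec m => 𝔼 i, if G.C (x + G.μ i) = G.C x then (1 : ℝ)
      else 0) (∑ i, zOf σ U i • M i) ≤ acc G (honest G σ) U := by
    refine expect_le_expect fun M _ => expect_le_expect fun i _ => ?_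
    refine le_expect univ_nonempty fun l _ => le_expect univ_nonempty fun h' _ =>
      le_expect univ_nonempty fun w _ => ?_
    rw [honest_name, honest_name]
    simp only [Pi.add_apply, smul_add, Finset.sum_add_distrib, sum_smul_shift hz, G.equi, tens,
      smul_smul, ← Finset.sum_smul, add_left_inj]
    rcases f2_cases (∑ x, zOf σ U x * l x) with e | e
    · rw [e, zero_smul, add_zero, if_pos rfl]
      split_ifs <;> norm_num
    · rw [e, one_smul]
  have h3 := expect_ev (zOf σ U) none hz.1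
    (fun x : Vec m => 𝔼 i, if G.C (x + G.μ i) = G.C x then (1 : ℝ) else 0)
  refine le_trans ?_ (h3.symm.le.trans h1)
  have h2 : ∀ x : Vec m, (𝔼 i, if G.C (x + G.μ i) = G.C x then (1 : ℝ) else 0) =
      1 - 𝔼 i, if G.C (x + G.μ i) = G.C x then (0 : ℝ) else 1 := by
    intro x
    rw [← Fintype.expect_const (ι := Fin (n + 1)) (1 : ℝ), ← expect_sub_distrib]
    refine expect_congr rfl fun i _ => ?_
    rw [Fintype.expect_const]
    split_ifs <;> norm_num
  simp only [h2, expect_sub_distrib, Fintype.expect_const]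
  exact sub_le_sub_left hG 1

theorem complete_core {E : Type} [Fintype E] [Nonempty E] {s m n k t : ℕ} (G : Gadget s m n)
    (eq : E → Eq3 ℕ) {ε η : ℝ} (hG : G.Stable ε) (σ : ℕ → Bool)
    (hσ : 1 - η ≤ 𝔼 e, if satLin (eq e) σ = true then (1 : ℝ) else 0) :
    ∃ F : Name k t (Vec m) → Vec s,
      1 - k * t * η - ε ≤ 𝔼 u : Fin k → Fin t → E, acc G F (fun j c => eq (u j c)) := by
  refine ⟨honest G σ, ?_⟩
  have hε : 0 ≤ ε := le_trans (expect_nonneg fun _ _ => expect_nonneg fun _ _ => by
    split_ifs <;> norm_num) hG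
  set φ : E → ℝ := fun e => if satLin (eq e) σ = true then 0 else 1 with hφ
  have hφ0 : ∀ e, 0 ≤ φ e := fun e => by simp only [hφ]; split_ifs <;> norm_num
  have h1 : 𝔼 e, φ e ≤ η := by
    have : 𝔼 e, φ e = 1 - 𝔼 e, if satLin (eq e) σ = true then (1 : ℝ) else 0 := by
      rw [← Fintype.expect_const (ι := E) (1 : ℝ), ← expect_sub_distrib]
      refine expect_congr rfl fun e _ => ?_
      rw [Fintype.expect_const]
      simp only [hφ]
      split_ifs <;> norm_num
    linarith
  have h2 : ∀ u : Fin k → Fin t → E, 1 - ε - ∑ j, ∑ c, φ (u j c) ≤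
      acc G (honest G σ) (fun j c => eq (u j c)) := by
    intro u
    have h3 : 0 ≤ ∑ j, ∑ c, φ (u j c) := sum_nonneg fun _ _ => sum_nonneg fun _ _ => hφ0 _
    by_cases h : ∀ j c, satLin (eq (u j c)) σ = true
    · linarith [acc_honest G hG σ (fun j c => eq (u j c)) h]
    · push Not at h
      obtain ⟨j, c, h⟩ := h
      have h4 : φ (u j c) = 1 := by simp only [hφ]; rw [if_neg h]
      have h5 : φ (u j c) ≤ ∑ j, ∑ c, φ (u j c) :=
        (single_le_sum (f := fun c => φ (u j c)) (fun _ _ => hφ0 _) (mem_univ c)).trans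
          (single_le_sum (f := fun j => ∑ c, φ (u j c))
            (fun _ _ => sum_nonneg fun _ _ => hφ0 _) (mem_univ j))
      linarith [acc_nonneg G (honest G σ) (fun j c => eq (u j c))]
  refine le_trans ?_ (expect_le_expect fun u _ => h2 u)
  rw [expect_sub_distrib, Fintype.expect_const, expect_sum_comm]
  have h6 : ∀ j : Fin k, 𝔼 u : Fin k → Fin t → E, ∑ c, φ (u j c) = t * 𝔼 e, φ e := by
    intro j
    rw [expect_eval j (fun v : Fin t → E => ∑ c, φ (v c)), expect_sum_comm]
    simp only [expect_eval, sum_const, card_univ, Fintype.card_fin, nsmul_eq_mul]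
  simp only [h6, sum_const, card_univ, Fintype.card_fin, nsmul_eq_mul]
  have h7 : (k : ℝ) * (t * 𝔼 e, φ e) ≤ k * t * η := by
    rw [mul_assoc]
    gcongr
  linarith

end Vale.Agent.P325
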