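import Vale.Agent.Lib.PCP.Fourier
import Vale.Agent.Lib.PCP.Defs

/-!
Definitions shared by the parts of the proof of the Unique Games Conjecture: rank one matrices,
noise operators, gadgets, and the data of the reduction.
-/

namespace Vale.Agent.P325

open Finset Vale.Agent.Lib.PCP
open scoped BigOperators

/-- The rank one matrix with columns `t j • a`. -/
def tens {ι V : Type} [SMul (ZMod 2) V] (a : V) (t : ι → ZMod 2) : ι → V := fun j => t j • a

/-- The noise operator: add a rank one matrix `ν r ⊗ b` with uniform `r` and `b`. -/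
noncomputable def noiseOp {ι V N : Type} [Fintype ι] [DecidableEq ι] [Add V] [SMul (ZMod 2) V]
    [Fintype N] (ν : N → V) (f : (ι → V) → ℝ) (M : ι → V) : ℝ :=
  𝔼 r : N, 𝔼 b : ι → ZMod 2, f (M + tens (ν r) b)

/-- Vectors of length `s` over the field with two elements. -/
abbrev Vec (s : ℕ) : Type := Fin s → ZMod 2

/-- A gadget: an equivariant map `C` onto the alphabet and a list of noise vectors. -/
structure Gadget (s m n : ℕ) where
  /-- the embedding of the alphabet -/
  κ : Vec s →ₗ[ZMod 2] Vec m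
  /-- the nonlinear map -/
  C : Vec m → Vec s
  /-- the noise vectors -/
  μ : Fin (n + 1) → Vec m
  equi : ∀ x k, C (x + κ k) = C x + k

/-- The nonlinear map rarely sees the noise. -/
def Gadget.Stable {s m n : ℕ} (G : Gadget s m n) (ε : ℝ) : Prop :=
  (𝔼 x, 𝔼 i, if G.C (x + G.μ i) = G.C x then (0 : ℝ) else 1) ≤ ε

/-- Linear maps of rank at least `r` on the alphabet see the noise. -/
def Gadget.Detect {s m n : ℕ} (G : Gadget s m n) (r : ℕ) (δ : ℝ) : Prop :=
  ∀ (ι : Type) [Fintype ι] [DecidableEq ι] (S : Vec m →ₗ[ZMod 2] (ι → ZMod 2)),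
    (𝔼 a, if S (G.κ a) = 0 then (1 : ℝ) else 0) ≤ (1 / 2) ^ r →
      (𝔼 i, if S (G.μ i) = 0 then (1 : ℝ) else 0) ≤ δ

/-- Column indices: the constant column, and one column for each variable of each equation. -/
abbrev Ix (k t : ℕ) : Type := Option (Fin k × Fin t × Fin 3)

/-- The three variables of an equation. -/
def evar (e : Eq3 ℕ) : Fin 3 → ℕ := ![e.1, e.2.1, e.2.2.1]

/-- The right hand side of an equation. -/
def erhs (e : Eq3 ℕ) : ZMod 2 := if e.2.2.2 = true then 1 else 0

/-- The variable of a column. -/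
def uvar {k t : ℕ} (U : Fin k → Fin t → Eq3 ℕ) : Ix k t → ℕ
  | none => 0
  | some (j, c, p) => evar (U j c) p

/-- Vertices of the unique game. -/
abbrev Name (k t : ℕ) (V : Type) : Type := (Ix k t → V) × (Ix k t → Option ℕ)

/-- The vertex of a matrix: the matrix and the variables of its nonzero columns. -/
def name {k t : ℕ} {V : Type} [Zero V] [DecidableEq V] (U : Fin k → Fin t → Eq3 ℕ)
    (M : Ix k t → V) : Name k t V :=
  (M, fun i => if M i = 0 then none else some (uvar U i))

/-- The matrix `∑ h j c ⊗ (equation j c) + w ⊗ 1`. -/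
def shift {k t : ℕ} {V : Type} [AddCommMonoid V] [SMul (ZMod 2) V] (U : Fin k → Fin t → Eq3 ℕ)
    (h : Fin k → Fin t → V) (w : V) : Ix k t → V
  | none => w + ∑ j, ∑ c, erhs (U j c) • h j c
  | some (j, c, _) => h j c

/-- `z` is an assignment of the columns which satisfies all equations of `U`. -/
def Valid {k t : ℕ} (U : Fin k → Fin t → Eq3 ℕ) (z : Ix k t → ZMod 2) : Prop :=
  z none = 1 ∧ ∀ j c, z (some (j, c, 0)) + z (some (j, c, 1)) + z (some (j, c, 2)) = erhs (U j c)

/-- Assignments which may depend on the position of the variable satisfy at most a `1 - γ`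
fraction of the equations. -/
def Tagged {E : Type} [Fintype E] (eq : E → Eq3 ℕ) (γ : ℝ) : Prop :=
  ∀ z : Fin 3 → ℕ → ZMod 2,
    (𝔼 e, if z 0 (evar (eq e) 0) + z 1 (evar (eq e) 1) + z 2 (evar (eq e) 2) = erhs (eq e)
      then (1 : ℝ) else 0) ≤ 1 - γ

/-- The acceptance probability of the labeling `F` on the constraints of the tuple `U`. -/
noncomputable def acc {s m n k t : ℕ} (G : Gadget s m n) (F : Name k t (Vec m) → Vec s)
    (U : Fin k → Fin t → Eq3 ℕ) : ℝ :=
  𝔼 M : Ix k t → Vec m, 𝔼 i : Fin (n + 1), 𝔼 l : Ix k t → ZMod 2,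
    𝔼 h : Fin k → Fin t → Vec m, 𝔼 w : Vec s,
      if F (name U (M + tens (G.μ i) l + shift U h (G.κ w))) = F (name U M) + w then 1 else 0

end Vale.Agent.P325
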