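import Mathlib.Computability.TuringMachine.Computable
import Mathlib.Algebra.Order.Archimedean.Real.Basic

/-!
Unique Games instances, their value and binary code, the class NP, and NP-hardness of the gap
problem.
-/

namespace Vale.Agent.P325

/-- A function on binary words is computed in polynomial time by a deterministic Turing machine
(the multi-stack machines of Mathlib, with finite alphabets). -/
def PolyTime (f : List Bool → List Bool) : Prop :=
  ∃ M : Turing.TM2ComputableInPolyTime (fun w : List Bool => w) (fun w : List Bool => w) f,
    ∀ k, Finite (M.tm.Γ k)

/-- The word `x` in self-delimiting form (each bit is preceded by `true`, the end is marked by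
`false`), followed by the word `y`. -/
def pair : List Bool → List Bool → List Bool
  | [], y => false :: y
  | c :: x, y => true :: c :: pair x y

/-- A list of words, each of them in self-delimiting form. -/
def codeList : List (List Bool) → List Bool
  | [] => []
  | x :: l => pair x (codeList l)

/-- The class NP: languages with polynomially long witnesses checked in polynomial time. -/
def NP : Set (Set (List Bool)) :=
  {L | ∃ (V : List Bool → List Bool) (p : Polynomial ℕ), PolyTime V ∧
    ∀ x, x ∈ L ↔ ∃ w : List Bool, w.length ≤ p.eval x.length ∧ V (pair x w) = [true]}

/-- A Unique Games instance over the alphabet `Fin k`: vertices `Fin n` and a nonempty list of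
constraints `(u, v, π)` with `π` a permutation of the alphabet. -/
structure UG (k : ℕ) where
  n : ℕ
  cons : List (Fin n × Fin n × Equiv.Perm (Fin k))
  cons_ne : cons ≠ []

/-- The value: the largest fraction of constraints `(u, v, π)` with `a v = π (a u)`, over all
labelings `a`. -/
noncomputable def UG.val {k : ℕ} (G : UG k) : ℝ :=
  ⨆ a : Fin G.n → Fin k,
    (G.cons.countP fun c => a c.2.1 = c.2.2 (a c.1) : ℝ) / G.cons.length

/-- The binary code: the number of vertices in unary, then for each constraint its two vertices
and the list of the values of its permutation, in binary. -/
def UG.code {k : ℕ} (G : UG k) : List Bool :=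
  pair (List.replicate G.n true) (codeList (G.cons.map fun c =>
    codeList [c.1.val.bits, c.2.1.val.bits, codeList (List.ofFn fun i => (c.2.2 i).val.bits)]))

/-- The gap problem `UG_k(c, s)` is NP-hard: every language in NP has a polynomial time map to
instances over `Fin k` with value at least `c` on members and at most `s` on non-members. -/
def GapNPHard (k : ℕ) (c s : ℝ) : Prop :=
  ∀ L ∈ NP, ∃ G : List Bool → UG k, PolyTime (fun x => (G x).code) ∧
    (∀ x, x ∈ L → c ≤ (G x).val) ∧ (∀ x, x ∉ L → (G x).val ≤ s)

end Vale.Agent.P325
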