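import Vale.Agent.P325.GadgetLin

/-!
The expected number of functionals which vanish on a random noise subspace.
-/

namespace Vale.Agent.P325

open Finset Module Vale.Agent.Lib.PCP
open scoped BigOperators

namespace Drop

variable {F : Type} [Field F] [Fintype F] [Algebra (ZMod 2) F]

omit [Fintype F] in
theorem eq_zero_of_tau {τ : F →ₗ[ZMod 2] ZMod 2} (hτ : τ ≠ 0) {x : F} (h : ∀ y, τ (y * x) = 0) :
    x = 0 := by
  by_contra hx
  refine hτ (LinearMap.ext fun y => ?_)
  have := h (y * x⁻¹)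
  rwa [mul_assoc, inv_mul_cancel₀ hx, mul_one] at this

omit [Fintype F] in
theorem vec_eq_zero_of_tau {τ : F →ₗ[ZMod 2] ZMod 2} (hτ : τ ≠ 0) {α : Fin 3 → F}
    (h : ∀ a, τ (α ⬝ᵥ a) = 0) : α = 0 := by
  funext i
  refine eq_zero_of_tau hτ fun y => ?_
  have := h (Pi.single i y)
  rwa [dotProduct_single, mul_comm] at this

/-- Squaring as a linear map over the prime field. -/
def sqL (F : Type) [Field F] [Algebra (ZMod 2) F] : F →ₗ[ZMod 2] F :=
  AddMonoidHom.toZModLinearMap 2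
    { toFun := fun x => x ^ 2
      map_zero' := by simp
      map_add' := fun x y => by
        have := char_two F
        exact CharTwo.add_sq x y }

theorem sq_surj (x : F) : ∃ y : F, y ^ 2 = x := by
  have h : Function.Injective (sqL F) := by
    rw [← LinearMap.ker_eq_bot, LinearMap.ker_eq_bot']
    intro y hy
    exact pow_eq_zero_iff (n := 2) (by norm_num) |>.1 hy
  exact Finite.surjective_of_injective h x

theorem tau_sq_ne_zero {τ : F →ₗ[ZMod 2] ZMod 2} (hτ : τ ≠ 0) : τ ∘ₗ sqL F ≠ 0 := by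
  intro h
  refine hτ (LinearMap.ext fun x => ?_)
  obtain ⟨y, rfl⟩ := sq_surj x
  exact LinearMap.congr_fun h y

/-- The functional `a ↦ τ ⟨α, a⟩`. -/
def fnl (τ : F →ₗ[ZMod 2] ZMod 2) (α : Fin 3 → F) : (Fin 3 → F) →ₗ[ZMod 2] ZMod 2 :=
  AddMonoidHom.toZModLinearMap 2
    { toFun := fun a => τ (α ⬝ᵥ a)
      map_zero' := by simp
      map_add' := fun a b => by rw [dotProduct_add, map_add] }

/-- The linear map with coordinates `a ↦ τ ⟨α i, a⟩`. -/
def rep {r : ℕ} (τ : F →ₗ[ZMod 2] ZMod 2) (α : Fin r → Fin 3 → F) :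
    (Fin 3 → F) →ₗ[ZMod 2] (Fin r → ZMod 2) := LinearMap.pi fun i => fnl τ (α i)

omit [Fintype F] in
theorem dot_rep {r : ℕ} (τ : F →ₗ[ZMod 2] ZMod 2) (α : Fin r → Fin 3 → F) (c : Fin r → ZMod 2)
    (a : Fin 3 → F) : c ⬝ᵥ rep τ α a = τ (comb α c ⬝ᵥ a) := by
  rw [comb, sum_dotProduct, map_sum, dotProduct]
  refine sum_congr rfl fun i _ => ?_
  rw [smul_dotProduct, map_smul, smul_eq_mul]
  rfl

theorem rep_bijective {r : ℕ} {τ : F →ₗ[ZMod 2] ZMod 2} (hτ : τ ≠ 0) :
    Function.Bijective (rep (r := r) τ) := by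
  classical
  rw [Fintype.bijective_iff_injective_and_card]
  constructor
  · intro α α' h
    funext i
    rw [← sub_eq_zero]
    refine vec_eq_zero_of_tau hτ fun a => ?_
    have h1 : τ (α i ⬝ᵥ a) = τ (α' i ⬝ᵥ a) := congrFun (LinearMap.congr_fun h a) i
    rw [sub_dotProduct, map_sub, h1, sub_self]
  · rw [Module.card_eq_pow_finrank (K := ZMod 2) (V := _ →ₗ[ZMod 2] _), Module.finrank_linearMap,
      Fintype.card_fun, Module.card_eq_pow_finrank (K := ZMod 2) (V := Fin 3 → F), ← pow_mul]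
    simp

omit [Fintype F] [Algebra (ZMod 2) F] in
theorem dot_crs (α c v : Fin 3 → F) : α ⬝ᵥ crs c v = crs v α ⬝ᵥ c := by
  simp [crs, dotProduct, Fin.sum_univ_three]
  ring

omit [Fintype F] in
theorem exists_smul_of_crs {v α : Fin 3 → F} (hα : α ≠ 0) (h : crs v α = 0) : ∃ s : F, v = s • α := by
  have := char_two F
  have h0 : v 1 * α 2 = v 2 * α 1 := CharTwo.add_eq_zero.1 (by simpa [crs] using congrFun h 0)
  have h1 : v 0 * α 2 = v 2 * α 0 := CharTwo.add_eq_zero.1 (by simpa [crs] using congrFun h 1)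
  have h2 : v 0 * α 1 = v 1 * α 0 := CharTwo.add_eq_zero.1 (by simpa [crs] using congrFun h 2)
  have h3 : ∀ i j, v i * α j = v j * α i := by
    intro i j
    fin_cases i <;> fin_cases j <;> simp [h0, h1, h2]
  obtain ⟨j, hj⟩ := Function.ne_iff.1 hα
  have hj' : α j ≠ 0 := hj
  refine ⟨v j / α j, funext fun i => ?_⟩
  rw [Pi.smul_apply, smul_eq_mul, div_mul_eq_mul_div, eq_div_iff hj', h3]

/-- The vanishing criterion. -/
theorem vanish {τ : F →ₗ[ZMod 2] ZMod 2} (hτ : τ ≠ 0) {α m v : Fin 3 → F} (hα : α ≠ 0)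
    (hv : v ≠ 0) (h : ∀ p, τ (α ⬝ᵥ (iota v p).1) + τ ((m ⬝ᵥ (iota v p).2) ^ 2) = 0) :
    (∃ s : F, v = s • α) ∧ (m ⬝ᵥ α) ^ 2 = α 0 * α 1 * α 2 := by
  have := char_two F
  have h1 : crs v α = 0 := by
    refine vec_eq_zero_of_tau hτ fun c => ?_
    have := h (0, c)
    simpa [iota_apply, dot_crs] using this
  obtain ⟨s, rfl⟩ := exists_smul_of_crs hα h1
  refine ⟨⟨s, rfl⟩, ?_⟩
  have hs : s ≠ 0 := by
    rintro rfl
    exact hv (zero_smul _ _)
  refine (CharTwo.add_eq_zero.1 (eq_zero_of_tau hτ fun y => ?_)).symm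
  obtain ⟨x, rfl⟩ := sq_surj y
  have h2 := h (x / s, 0)
  rw [← map_add] at h2
  rw [← h2]
  congr 1
  have h3 : (3 : F) = 1 := by
    rw [show (3 : F) = 2 + 1 by norm_num, CharTwo.two_eq_zero, zero_add]
  have h4 : α ⬝ᵥ Qm α = α 0 * α 1 * α 2 := by
    calc α ⬝ᵥ Qm α = 3 * (α 0 * α 1 * α 2) := by
          simp [Qm, dotProduct, Fin.sum_univ_three]
          ring
      _ = _ := by rw [h3, one_mul]
  have h5 : crs (0 : Fin 3 → F) (s • α) = 0 := by
    funext i
    fin_cases i <;> simp [crs]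
  simp only [iota_apply, h5, add_zero, Qm_smul, dotProduct_smul, smul_eq_mul, h4]
  field_simp

omit [Algebra (ZMod 2) F] in
open Classical in
theorem expect_line (α : Fin 3 → F) :
    𝔼 v : Fin 3 → F, (if ∃ s : F, v = s • α then (1 : ℝ) else 0) ≤
      1 / (Fintype.card F : ℝ) ^ 2 := by
  have hq : (0 : ℝ) < Fintype.card F := by exact_mod_cast Fintype.card_pos
  rw [Fintype.expect_eq_sum_div_card, sum_boole, Fintype.card_fun, Fintype.card_fin]
  have h1 : (univ.filter fun v : Fin 3 → F => ∃ s : F, v = s • α).card ≤ Fintype.card F := by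
    refine le_trans (card_le_card fun v hv => ?_) (card_image_le (s := univ) (f := fun s : F => s • α))
    obtain ⟨s, rfl⟩ := (mem_filter.1 hv).2
    exact mem_image_of_mem _ (mem_univ s)
  have h2 : ((univ.filter fun v : Fin 3 → F => ∃ s : F, v = s • α).card : ℝ) ≤ Fintype.card F := by
    exact_mod_cast h1
  push_cast
  rw [div_le_div_iff₀ (by positivity) (by positivity)]
  calc _ ≤ Fintype.card F * (Fintype.card F : ℝ) ^ 2 := by gcongr
    _ = _ := by ring

open Classical in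
theorem expect_drop_le {r : ℕ} {τ : F →ₗ[ZMod 2] ZMod 2} (hτ : τ ≠ 0) (α m : Fin r → Fin 3 → F) :
    𝔼 v : Fin 3 → F, (dropCount ((rep τ α).coprod (rep (τ ∘ₗ sqL F) m) ∘ₗ iota v) : ℝ) ≤
      (∑ c : Fin r → ZMod 2, if c ≠ 0 ∧ comb α c = 0 then (1 : ℝ) else 0) +
        2 ^ r / (Fintype.card F : ℝ) ^ 3 + (badSet α m).card / (Fintype.card F : ℝ) ^ 2 := by
  have h1 : ∀ c : Fin r → ZMod 2, 𝔼 v : Fin 3 → F, (if c ≠ 0 ∧
      ∀ p, c ⬝ᵥ ((rep τ α).coprod (rep (τ ∘ₗ sqL F) m) ∘ₗ iota v) p = 0 then (1 : ℝ) else 0) ≤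
      (if c ≠ 0 ∧ comb α c = 0 then (1 : ℝ) else 0) + 1 / (Fintype.card F : ℝ) ^ 3 +
        (if c ∈ badSet α m then 1 else 0) * (1 / (Fintype.card F : ℝ) ^ 2) := by
    intro c
    have h2 : 𝔼 v : Fin 3 → F, (if v = 0 then (1 : ℝ) else 0) = 1 / (Fintype.card F : ℝ) ^ 3 := by
      rw [prob_zero, Fintype.card_fun, Fintype.card_fin]
      push_cast
      rfl
    refine le_trans ?_ (add_le_add le_rfl (mul_le_mul_of_nonneg_left (expect_line (comb α c))
      (by split_ifs <;> norm_num)))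
    rw [← h2, ← Fintype.expect_const (ι := Fin 3 → F)
      (if c ≠ 0 ∧ comb α c = 0 then (1 : ℝ) else 0), mul_expect, ← expect_add_distrib,
      ← expect_add_distrib]
    refine expect_le_expect fun v _ => ?_
    by_cases hk : c ≠ 0 ∧
      ∀ p, c ⬝ᵥ ((rep τ α).coprod (rep (τ ∘ₗ sqL F) m) ∘ₗ iota v) p = 0
    · rw [if_pos hk]
      by_cases h3 : comb α c = 0
      · rw [if_pos ⟨hk.1, h3⟩]
        split_ifs <;> norm_num
      · by_cases h4 : v = 0
        · rw [if_pos h4]
          split_ifs <;> norm_num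
        · have h5 := vanish hτ (m := comb m c) h3 h4 fun p => by
            have h6 := hk.2 p
            rw [LinearMap.comp_apply, LinearMap.coprod_apply, dotProduct_add, dot_rep,
              dot_rep] at h6
            exact h6
          rw [if_pos (mem_badSet.2 ⟨hk.1, h5.2⟩), if_pos h5.1]
          split_ifs <;> norm_num
    · rw [if_neg hk]
      split_ifs <;> norm_num
  simp only [dropCount, card_filter]
  push_cast
  rw [expect_sum_comm]
  refine (sum_le_sum fun c _ => le_trans (le_of_eq ?_) (h1 c)).trans (le_of_eq ?_)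
  · exact expect_congr rfl fun v _ => by congr
  · rw [sum_add_distrib, sum_add_distrib, ← sum_mul, sum_boole, sum_boole, sum_const, card_univ,
      Fintype.card_fun, ZMod.card, Fintype.card_fin, filter_mem_eq_inter, univ_inter]
    simp only [nsmul_eq_mul]
    push_cast
    ring

theorem exists_tau (F : Type) [Field F] [Algebra (ZMod 2) F] :
    ∃ τ : F →ₗ[ZMod 2] ZMod 2, τ ≠ 0 := by
  obtain ⟨τ, hτ⟩ := Module.Projective.exists_dual_eq_one (ZMod 2) (one_ne_zero (α := F))
  refine ⟨τ, fun h => ?_⟩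
  rw [h] at hτ
  simp at hτ

omit [Fintype F] in
theorem card_badSet_le {r : ℕ} (α m : Fin r → Fin 3 → F) : ((badSet α m).card : ℝ) ≤ 2 ^ r := by
  have := card_le_univ (badSet α m)
  rw [Fintype.card_fun, ZMod.card, Fintype.card_fin] at this
  exact_mod_cast this

open Classical in
theorem expect_comb_eq_zero {r : ℕ} {c : Fin r → ZMod 2} (hc : c ≠ 0) :
    𝔼 α : Fin r → Fin 3 → F, (if comb α c = 0 then (1 : ℝ) else 0) =
      1 / (Fintype.card F : ℝ) ^ 3 := by
  let φ : (Fin r → Fin 3 → F) →+ (Fin 3 → F) :=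
    { toFun := fun α => comb α c
      map_zero' := by simp [comb]
      map_add' := fun α β => by simp [comb, sum_add_distrib] }
  have hφ : Function.Surjective φ := by
    intro x
    obtain ⟨i, hi⟩ := Function.ne_iff.1 hc
    refine ⟨Pi.single i x, ?_⟩
    change ∑ j, c j • (Pi.single i x : Fin r → Fin 3 → F) j = x
    rw [sum_eq_single i (fun j _ hj => by simp [Pi.single_eq_of_ne hj]) (by simp),
      f2_ne_zero.1 hi]
    simp
  have h := expect_hom φ hφ (fun x => if x = 0 then (1 : ℝ) else 0)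
  rw [prob_zero, Fintype.card_fun, Fintype.card_fin] at h
  push_cast at h
  exact h

theorem drop_avg (r : ℕ) : ∃ D : ℕ, ∀ (F : Type) [Field F] [Fintype F] [Algebra (ZMod 2) F],
    ∃ β : ((Fin 3 → F) →ₗ[ZMod 2] (Fin r → ZMod 2)) → ℝ,
      (∀ S M : (Fin 3 → F) →ₗ[ZMod 2] (Fin r → ZMod 2),
        𝔼 v : Fin 3 → F, (dropCount (S.coprod M ∘ₗ iota v) : ℝ) ≤ β S) ∧
      𝔼 S, β S ≤ (3 * r + D / Fintype.card F) / (Fintype.card F : ℝ) ^ 2 := by
  classical
  obtain ⟨D, hD⟩ := generic_lemma (Fin r)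
  refine ⟨2 ^ r * (D + 2), fun F _ _ _ => ?_⟩
  obtain ⟨τ, hτ⟩ := exists_tau F
  have hq : (0 : ℝ) < Fintype.card F := by exact_mod_cast Fintype.card_pos
  let e := Equiv.ofBijective _ (rep_bijective (r := r) hτ)
  let b : (Fin r → Fin 3 → F) → ℝ := fun α =>
    (∑ c : Fin r → ZMod 2, if c ≠ 0 ∧ comb α c = 0 then (1 : ℝ) else 0) +
      2 ^ r / (Fintype.card F : ℝ) ^ 3 + (3 * r + 2 ^ r *
        if ∃ M, 3 * Fintype.card (Fin r) < (badSet α M).card then (1 : ℝ) else 0) /
          (Fintype.card F : ℝ) ^ 2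
  refine ⟨fun S => b (e.symm S), fun S M => ?_, ?_⟩
  · obtain ⟨α, rfl⟩ := e.surjective S
    obtain ⟨m, rfl⟩ := (rep_bijective (r := r) (tau_sq_ne_zero hτ)).2 M
    refine (expect_drop_le hτ α m).trans ?_
    simp only [b, Equiv.symm_apply_apply]
    gcongr
    split_ifs with h
    · have := card_badSet_le α m
      have h0 : (0 : ℝ) ≤ r := by positivity
      linarith
    · rw [not_exists] at h
      have h1 := not_lt.1 (h m)
      rw [Fintype.card_fin] at h1
      rw [mul_zero, add_zero]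
      exact_mod_cast h1
  · rw [← Fintype.expect_equiv e b _ fun α => by rw [Equiv.symm_apply_apply]]
    simp only [b]
    rw [expect_add_distrib, expect_add_distrib, Fintype.expect_const, ← expect_div,
      expect_add_distrib, Fintype.expect_const, ← mul_expect, expect_sum_comm]
    have h1 : ∑ c : Fin r → ZMod 2, 𝔼 α : Fin r → Fin 3 → F,
        (if c ≠ 0 ∧ comb α c = 0 then (1 : ℝ) else 0) ≤ 2 ^ r / (Fintype.card F : ℝ) ^ 3 := by
      refine (sum_le_card_nsmul _ _ (1 / (Fintype.card F : ℝ) ^ 3) fun c _ => ?_).trans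
        (le_of_eq ?_)
      · by_cases hc : c = 0
        · simp [hc]
        · rw [← expect_comb_eq_zero hc]
          refine le_of_eq (expect_congr rfl fun α _ => ?_)
          simp [hc]
      · rw [card_univ, Fintype.card_fun, ZMod.card, Fintype.card_fin, nsmul_eq_mul]
        push_cast
        ring
    calc _ ≤ 2 ^ r / (Fintype.card F : ℝ) ^ 3 + 2 ^ r / (Fintype.card F : ℝ) ^ 3 +
          (3 * r + 2 ^ r * (D / Fintype.card F)) / (Fintype.card F : ℝ) ^ 2 := by
          gcongr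
          exact hD F
      _ = _ := by
          push_cast
          field_simp
          ring

theorem drop_root (r : ℕ) (F : Type) [Field F] [Fintype F] [Algebra (ZMod 2) F]
    (S M : (Fin 3 → F) →ₗ[ZMod 2] (Fin r → ZMod 2)) (hS : Function.Surjective S) :
    𝔼 v : Fin 3 → F, (dropCount (S.coprod M ∘ₗ iota v) : ℝ) ≤
      2 * 2 ^ r / (Fintype.card F : ℝ) ^ 2 := by
  classical
  obtain ⟨τ, hτ⟩ := exists_tau F
  have hq : (1 : ℝ) ≤ Fintype.card F := by exact_mod_cast Fintype.card_pos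
  obtain ⟨α, rfl⟩ := (rep_bijective (r := r) hτ).2 S
  obtain ⟨m, rfl⟩ := (rep_bijective (r := r) (tau_sq_ne_zero hτ)).2 M
  refine (expect_drop_le hτ α m).trans ?_
  have h1 : (∑ c : Fin r → ZMod 2, if c ≠ 0 ∧ comb α c = 0 then (1 : ℝ) else 0) = 0 := by
    refine sum_eq_zero fun c _ => if_neg fun h => h.1 ?_
    funext i
    obtain ⟨a, ha⟩ := hS (Pi.single i 1)
    have h2 := dot_rep τ α c a
    rw [ha, h.2, dotProduct_single, mul_one, zero_dotProduct, map_zero] at h2
    exact h2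
  rw [h1, zero_add]
  have h2 := card_badSet_le α m
  calc _ ≤ 2 ^ r / (Fintype.card F : ℝ) ^ 2 + 2 ^ r / (Fintype.card F : ℝ) ^ 2 := by
        gcongr
        norm_num
    _ = _ := by ring

end Drop

end Vale.Agent.P325
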