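import Vale.Agent.P325.GadgetLin

/-!
The recursive construction of the gadget: one level of the recursion, its effect on the error of
the nonlinear map and on the linear maps.
-/

namespace Vale.Agent.P325

open Finset Module Vale.Agent.Lib.PCP
open scoped BigOperators

/-- An abstract gadget on the alphabet `B`: the map `(a, u) ↦ a + g u` on `B × U` and the noise
vectors `(a ω, n ω)`. -/
structure Gad (B : Type) where
  /-- the complement of the alphabet -/
  U : Type
  /-- the index set of the noise vectors -/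
  Ω : Type
  [gU : AddCommGroup U]
  [mU : Module (ZMod 2) U]
  [fU : Fintype U]
  [fΩ : Fintype Ω]
  [nΩ : Nonempty Ω]
  /-- the nonlinear part -/
  g : U → B
  /-- the alphabet part of the noise -/
  a : Ω → B
  /-- the complement part of the noise -/
  n : Ω → U

attribute [instance] Gad.gU Gad.mU Gad.fU Gad.fΩ Gad.nΩ

namespace Gad

section general

variable {B W W' : Type} [AddCommGroup B] [Module (ZMod 2) B] [AddCommGroup W]
  [Module (ZMod 2) W] [AddCommGroup W'] [Module (ZMod 2) W']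

/-- The change of the nonlinear map under the noise. -/
def chg (G : Gad B) (u : G.U) (ω : G.Ω) : B := G.a ω + G.g (u + G.n ω) - G.g u

open Classical in
/-- The probability that the nonlinear map sees the noise. -/
noncomputable def err (G : Gad B) : ℝ := 𝔼 u, 𝔼 ω, if G.chg u ω = 0 then (0 : ℝ) else 1

open Classical in
/-- The probability that the linear map `(S, L)` does not see the noise. -/
noncomputable def bad (G : Gad B) (S : B →ₗ[ZMod 2] W) (L : G.U →ₗ[ZMod 2] W) : ℝ :=
  𝔼 ω, if S (G.a ω) + L (G.n ω) = 0 then (1 : ℝ) else 0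

/-- The largest probability that an extension of `S` does not see the noise. -/
noncomputable def N (G : Gad B) (S : B →ₗ[ZMod 2] W) : ℝ := ⨆ L, G.bad S L

theorem bad_le_one (G : Gad B) (S : B →ₗ[ZMod 2] W) (L : G.U →ₗ[ZMod 2] W) : G.bad S L ≤ 1 :=
  expect_le univ_nonempty fun _ _ => by split_ifs <;> norm_num

theorem bad_le_N (G : Gad B) (S : B →ₗ[ZMod 2] W) (L : G.U →ₗ[ZMod 2] W) : G.bad S L ≤ G.N S :=
  le_ciSup (f := fun L => G.bad S L) ⟨1, by rintro _ ⟨L, rfl⟩; exact G.bad_le_one S L⟩ L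

theorem N_le (G : Gad B) (S : B →ₗ[ZMod 2] W) {x : ℝ} (h : ∀ L, G.bad S L ≤ x) : G.N S ≤ x :=
  ciSup_le h

theorem N_le_one (G : Gad B) (S : B →ₗ[ZMod 2] W) : G.N S ≤ 1 := G.N_le S (G.bad_le_one S)

theorem N_le_comp (G : Gad B) (S : B →ₗ[ZMod 2] W) (π : W →ₗ[ZMod 2] W') :
    G.N S ≤ G.N (π ∘ₗ S) := by
  refine G.N_le S fun L => le_trans ?_ (G.bad_le_N (π ∘ₗ S) (π ∘ₗ L))
  refine expect_le_expect fun ω _ => ?_
  split_ifs with h1 h2
  · exact le_rfl
  · exact absurd (by simp only [LinearMap.comp_apply, ← map_add, h1, map_zero]) h2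
  · norm_num
  · exact le_rfl

/-- The average of `N` over all linear maps to the space of dimension `r`. -/
noncomputable def Psi [Finite B] (G : Gad B) (r : ℕ) : ℝ :=
  𝔼 S : B →ₗ[ZMod 2] (Fin r → ZMod 2), G.N S

theorem Psi_le_one [Finite B] (G : Gad B) (r : ℕ) : G.Psi r ≤ 1 :=
  expect_le univ_nonempty fun S _ => G.N_le_one S

theorem expect_N_comp [Finite B] {P : Type} [AddCommGroup P] [Module (ZMod 2) P] [Finite P]
    (G : Gad B) (T : P →ₗ[ZMod 2] W) :
    𝔼 J : B →ₗ[ZMod 2] P, G.N (T ∘ₗ J) ≤ G.Psi (rk T) := by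
  obtain ⟨π, hπ⟩ := exists_proj T le_rfl
  rw [Psi, ← expect_comp_lin hπ]
  exact expect_le_expect fun J _ => G.N_le_comp _ π

/-- The trivial gadget. -/
def base (B : Type) [Fintype B] [Nonempty B] [Zero B] : Gad B where
  U := PUnit
  Ω := B
  g := fun _ => 0
  a := id
  n := fun _ => 0

omit [Module (ZMod 2) B] in
theorem err_le_one (G : Gad B) : G.err ≤ 1 :=
  expect_le univ_nonempty fun _ _ => expect_le univ_nonempty fun _ _ => by
    split_ifs <;> norm_num

theorem Psi_base [Fintype B] (r : ℕ) :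
    (base B).Psi r ≤ 1 / Fintype.card B + (1 / 2) ^ r := by
  classical
  have h1 : ∀ S : B →ₗ[ZMod 2] (Fin r → ZMod 2),
      (base B).N S ≤ 𝔼 a : B, if S a = 0 then (1 : ℝ) else 0 := by
    intro S
    refine N_le _ _ fun L => le_of_eq (expect_congr rfl fun a _ => ?_)
    have : (base B).n a = 0 := rfl
    rw [this, map_zero, add_zero]
    congr
  refine le_trans (expect_le_expect fun S _ => h1 S) ?_
  rw [expect_comm, ← prob_zero (A := B), ← Fintype.expect_const (ι := B) ((1 / 2 : ℝ) ^ r),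
    ← expect_add_distrib]
  refine expect_le_expect fun a _ => ?_
  by_cases ha : a = 0
  · rw [if_pos ha]
    refine le_trans (expect_le univ_nonempty fun S _ => ?_) (le_add_of_nonneg_right (by positivity))
    split_ifs <;> norm_num
  · rw [if_neg ha, zero_add,
      expect_eval_lin ha (fun p : Fin r → ZMod 2 => if p = 0 then (1 : ℝ) else 0), prob_zero]
    simp

end general

variable {F : Type} [Field F] [Fintype F] [Algebra (ZMod 2) F]

/-- The index set of the blocks of one level. -/
abbrev Om (F : Type) [Field F] [Algebra (ZMod 2) F] : Type :=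
  (Fin 3 → F) × ((Fin 3 → F) →ₗ[ZMod 2] F × (Fin 3 → F))

/-- The linear map of a block. -/
def jmap (o : Om F) : (Fin 3 → F) →ₗ[ZMod 2] (Fin 3 → F) × (Fin 3 → F) := iota o.1 ∘ₗ o.2

/-- The sum of the contributions of all blocks. -/
noncomputable def wsum (G : Gad (Fin 3 → F)) (u : Om F → G.U) : (Fin 3 → F) × (Fin 3 → F) :=
  ∑ o, jmap o (G.g (u o))

open Classical in
/-- One level of the recursion. -/
noncomputable def step (G : Gad (Fin 3 → F)) : Gad (Fin 3 → F) where
  U := (Fin 3 → F) × (Om F → G.U)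
  Ω := Om F × G.Ω
  g := fun x => (G.wsum x.2).1 + Qm (x.1 + (G.wsum x.2).2)
  a := fun x => (jmap x.1 (G.a x.2)).1
  n := fun x => ((jmap x.1 (G.a x.2)).2, Pi.single x.1 (G.n x.2))

open Classical in
theorem wsum_add_single (G : Gad (Fin 3 → F)) (u : Om F → G.U) (o : Om F) (n : G.U) :
    G.wsum (u + Pi.single o n) = G.wsum u + jmap o (G.g (u o + n) - G.g (u o)) := by
  rw [wsum, wsum, ← add_sum_erase _ _ (mem_univ o), ← add_sum_erase _ _ (mem_univ o), map_sub]
  have : ∑ x ∈ univ.erase o, jmap x (G.g ((u + Pi.single o n : Om F → G.U) x)) =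
      ∑ x ∈ univ.erase o, jmap x (G.g (u x)) :=
    sum_congr rfl fun x hx => by simp [Pi.single_eq_of_ne (ne_of_mem_erase hx)]
  rw [this]
  simp only [Pi.add_apply, Pi.single_eq_same]
  abel

theorem chg_step (G : Gad (Fin 3 → F)) (y : Fin 3 → F) (u : Om F → G.U) (o : Om F) (ω : G.Ω) :
    G.step.chg (y, u) (o, ω) =
      crs ((o.2 (G.chg (u o) ω)).2 + (o.2 (G.chg (u o) ω)).1 • (y + (G.wsum u).2)) o.1 := by
  classical
  have := char_two F
  have h1 : G.step.chg (y, u) (o, ω) = (jmap o (G.a ω)).1 +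
      ((G.wsum (u + Pi.single o (G.n ω))).1 +
        Qm (y + (jmap o (G.a ω)).2 + (G.wsum (u + Pi.single o (G.n ω))).2)) -
      ((G.wsum u).1 + Qm (y + (G.wsum u).2)) := rfl
  have h2 : jmap o (G.chg (u o) ω) = jmap o (G.a ω) + jmap o (G.g (u o + G.n ω) - G.g (u o)) := by
    rw [← map_add, chg, add_sub_assoc]
  have h3 : y + (jmap o (G.a ω)).2 + (G.wsum (u + Pi.single o (G.n ω))).2 =
      (y + (G.wsum u).2) + (jmap o (G.chg (u o) ω)).2 := by
    rw [wsum_add_single, h2, Prod.snd_add, Prod.snd_add]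
    abel
  have h4 : G.step.chg (y, u) (o, ω) = (jmap o (G.chg (u o) ω)).1 +
      Qm (jmap o (G.chg (u o) ω)).2 + crs (y + (G.wsum u).2) (jmap o (G.chg (u o) ω)).2 := by
    rw [h1, h3, Qm_add (y + (G.wsum u).2), wsum_add_single, h2, Prod.fst_add, Prod.fst_add]
    abel
  rw [h4, jmap, LinearMap.comp_apply, iota_apply, Qm_smul, crs_smul_right, crs_add_left]
  have h5 : ∀ x : Fin 3 → F, x + x = 0 := fun x => funext fun i => CharTwo.add_self_eq_zero _
  rw [add_right_comm _ (crs _ _), h5, zero_add]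

omit [Fintype F] in
theorem crs_smul_self (t : F) (v : Fin 3 → F) : crs (t • v) v = 0 := by
  have := char_two F
  funext i
  fin_cases i <;> simp [crs] <;> ring_nf <;> simp [CharTwo.two_eq_zero]

open Classical in
theorem expect_crs_ne (v : Fin 3 → F) :
    𝔼 c : Fin 3 → F, (if crs c v = 0 then (0 : ℝ) else 1) ≤ 1 - 1 / (Fintype.card F : ℝ) ^ 2 := by
  have hq : (0 : ℝ) < Fintype.card F := by exact_mod_cast Fintype.card_pos
  have h1 : (1 : ℝ) / (Fintype.card F : ℝ) ^ 2 ≤
      𝔼 c : Fin 3 → F, (if crs c v = 0 then (1 : ℝ) else 0) := by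
    by_cases hv : v = 0
    · have : ∀ c : Fin 3 → F, crs c v = 0 := fun c => by
        funext i
        fin_cases i <;> simp [crs, hv]
      simp only [this, if_true, Fintype.expect_const]
      rw [div_le_one (by positivity)]
      exact one_le_pow₀ (by exact_mod_cast Fintype.card_pos)
    · rw [Fintype.expect_eq_sum_div_card, sum_boole, Fintype.card_fun, Fintype.card_fin]
      have h2 : Fintype.card F ≤ (univ.filter fun c : Fin 3 → F => crs c v = 0).card := by
        rw [← card_univ]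
        refine card_le_card_of_injOn (fun t => t • v) (fun t _ => ?_) fun s _ t _ h => ?_
        · simp [crs_smul_self]
        · exact smul_left_injective F hv h
      have h3 : (Fintype.card F : ℝ) ≤ (univ.filter fun c : Fin 3 → F => crs c v = 0).card := by
        exact_mod_cast h2
      push_cast
      rw [div_le_div_iff₀ (by positivity) (by positivity)]
      calc 1 * (Fintype.card F : ℝ) ^ 3 = Fintype.card F * (Fintype.card F : ℝ) ^ 2 := by ring
        _ ≤ _ := by gcongr
  have h2 : 𝔼 c : Fin 3 → F, (if crs c v = 0 then (0 : ℝ) else 1) =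
      1 - 𝔼 c : Fin 3 → F, (if crs c v = 0 then (1 : ℝ) else 0) := by
    rw [← Fintype.expect_const (ι := Fin 3 → F) (1 : ℝ), ← expect_sub_distrib]
    refine expect_congr rfl fun c _ => ?_
    split_ifs <;> simp
  linarith

theorem err_step (G : Gad (Fin 3 → F)) :
    G.step.err ≤ (1 - 1 / (Fintype.card F : ℝ) ^ 2) * G.err := by
  classical
  let Φ : (Fin 3 → F) → Om F → (Fin 3 → F) → ℝ := fun y o e =>
    if crs ((o.2 e).2 + (o.2 e).1 • y) o.1 = 0 then 0 else 1
  have hΦ : ∀ y e, 𝔼 o, Φ y o e ≤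
      (1 - 1 / (Fintype.card F : ℝ) ^ 2) * if e = 0 then 0 else 1 := by
    intro y e
    split_ifs with he
    · subst he
      have : ∀ o, Φ y o 0 = 0 := fun o => by
        have h0 : crs (0 : Fin 3 → F) o.1 = 0 := by
          funext i
          fin_cases i <;> simp [crs]
        simp [Φ, h0]
      simp [this]
    · rw [mul_one, expect_prod]
      refine expect_le univ_nonempty fun v _ => ?_
      have h1 := expect_eval_lin he (fun p : F × (Fin 3 → F) =>
        if crs (p.2 + p.1 • y) v = 0 then (0 : ℝ) else 1)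
      refine le_of_eq_of_le h1 ?_
      rw [expect_prod]
      refine expect_le univ_nonempty fun t _ => ?_
      refine le_of_eq_of_le (expect_shift_right (fun c => if crs c v = 0 then (0 : ℝ) else 1) (t • y)) ?_
      exact expect_crs_ne v
  calc G.step.err = 𝔼 x : (Fin 3 → F) × (Om F → G.U), 𝔼 z : Om F × G.Ω,
        Φ (x.1 + (G.wsum x.2).2) z.1 (G.chg (x.2 z.1) z.2) := by
        refine expect_congr rfl fun x _ => expect_congr rfl fun z _ => ?_
        have h0 : G.step.chg x z = _ := G.chg_step x.1 x.2 z.1 z.2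
        rw [h0]
        simp only [Φ]
        congr
    _ = 𝔼 u : Om F → G.U, 𝔼 y : Fin 3 → F, 𝔼 z : Om F × G.Ω,
        Φ (y + (G.wsum u).2) z.1 (G.chg (u z.1) z.2) := by
        rw [expect_prod, expect_comm]
    _ = 𝔼 u : Om F → G.U, 𝔼 y : Fin 3 → F, 𝔼 z : Om F × G.Ω,
        Φ y z.1 (G.chg (u z.1) z.2) :=
        expect_congr rfl fun u _ => expect_shift_right
          (fun y => 𝔼 z : Om F × G.Ω, Φ y z.1 (G.chg (u z.1) z.2)) _
    _ = 𝔼 y : Fin 3 → F, 𝔼 z : Om F × G.Ω, 𝔼 u : Om F → G.U,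
        Φ y z.1 (G.chg (u z.1) z.2) := by
        rw [expect_comm]
        exact expect_congr rfl fun y _ => expect_comm _ _ _
    _ = 𝔼 y : Fin 3 → F, 𝔼 z : Om F × G.Ω, 𝔼 x : G.U, Φ y z.1 (G.chg x z.2) :=
        expect_congr rfl fun y _ => expect_congr rfl fun z _ =>
          expect_eval_pi z.1 (fun x => Φ y z.1 (G.chg x z.2))
    _ = 𝔼 y : Fin 3 → F, 𝔼 x : G.U, 𝔼 ω : G.Ω, 𝔼 o : Om F, Φ y o (G.chg x ω) := by
        refine expect_congr rfl fun y _ => ?_
        rw [expect_comm]
        refine expect_congr rfl fun x _ => ?_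
        rw [expect_prod, expect_comm]
    _ ≤ _ := by
        refine expect_le univ_nonempty fun y _ => ?_
        rw [err, mul_expect]
        refine expect_le_expect fun x _ => ?_
        rw [mul_expect]
        refine expect_le_expect fun ω _ => (hΦ y _).trans (le_of_eq ?_)
        congr

theorem N_step {W : Type} [AddCommGroup W] [Module (ZMod 2) W] (G : Gad (Fin 3 → F))
    (S : (Fin 3 → F) →ₗ[ZMod 2] W) {x : ℝ}
    (h : ∀ M : (Fin 3 → F) →ₗ[ZMod 2] W, 𝔼 v, G.Psi (rk (S.coprod M ∘ₗ iota v)) ≤ x) :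
    G.step.N S ≤ x := by
  classical
  refine N_le _ _ fun L => ?_
  let L' : ((Fin 3 → F) × (Om F → G.U)) →ₗ[ZMod 2] W := L
  let M : (Fin 3 → F) →ₗ[ZMod 2] W := L' ∘ₗ LinearMap.inl _ _ _
  let Lo : Om F → G.U →ₗ[ZMod 2] W := fun o =>
    L' ∘ₗ LinearMap.inr _ _ _ ∘ₗ LinearMap.single (ZMod 2) (fun _ : Om F => G.U) o
  refine le_trans ?_ (h M)
  calc G.step.bad S L = 𝔼 z : Om F × G.Ω,
        (if ((S.coprod M ∘ₗ iota z.1.1) ∘ₗ z.1.2) (G.a z.2) + Lo z.1 (G.n z.2) = 0
          then (1 : ℝ) else 0) := by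
        refine expect_congr rfl fun z _ => if_congr (Eq.congr_left ?_) rfl rfl
        have h1 : L (G.step.n z) = M (jmap z.1 (G.a z.2)).2 + Lo z.1 (G.n z.2) := by
          change L' ((jmap z.1 (G.a z.2)).2, Pi.single z.1 (G.n z.2)) = L' _ + L' _
          rw [← map_add]
          simp
        rw [h1, ← add_assoc]
        rfl
    _ = 𝔼 v, 𝔼 J, G.bad ((S.coprod M ∘ₗ iota v) ∘ₗ J) (Lo (v, J)) := by
        rw [expect_prod, expect_prod]
        refine expect_congr rfl fun v _ => expect_congr rfl fun J _ => expect_congr rfl fun ω _ => ?_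
        congr
    _ ≤ _ := expect_le_expect fun v _ =>
        le_trans (expect_le_expect fun J _ => G.bad_le_N _ _) (G.expect_N_comp _)

end Gad

end Vale.Agent.P325
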