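import Vale.Agent.P325.Core
import Vale.Agent.P325.GadgetStep
import Vale.Agent.P325.GadgetDrop
import Mathlib.FieldTheory.Finite.GaloisField

/-!
Existence of the gadget: a nonlinear equivariant map which rarely sees the noise, while every
linear map of large rank on the alphabet sees it almost always.
-/

namespace Vale.Agent.P325

open Finset Module Vale.Agent.Lib.PCP
open scoped BigOperators

namespace Gad

section

variable {F : Type} [Field F] [Fintype F] [Algebra (ZMod 2) F]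

theorem N_step_le (G : Gad (Fin 3 → F)) {R r : ℕ} {A b : ℝ} (hA0 : 0 ≤ A)
    (hA : ∀ r ≤ R, G.Psi r ≤ A / (r + 1)) (hr : r ≤ R)
    (S : (Fin 3 → F) →ₗ[ZMod 2] (Fin r → ZMod 2))
    (hb : ∀ M, 𝔼 v : Fin 3 → F, (dropCount (S.coprod M ∘ₗ iota v) : ℝ) ≤ b) :
    G.step.N S ≤ A / (r + 1) * (1 + 2 / r * b) := by
  refine G.N_step S fun M => ?_
  calc 𝔼 v, G.Psi (rk (S.coprod M ∘ₗ iota v))
      ≤ 𝔼 v : Fin 3 → F,
          A / (r + 1) * (1 + 2 / r * (dropCount (S.coprod M ∘ₗ iota v) : ℝ)) := by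
        refine expect_le_expect fun v _ => (hA _ ((rk_le _).trans hr)).trans ?_
        have h1 := mul_le_mul_of_nonneg_left
          (potential_le (rk_le (S.coprod M ∘ₗ iota v)) (two_pow_le_dropCount _)) hA0
        refine le_of_eq_of_le ?_ (h1.trans (le_of_eq ?_)) <;> ring
    _ = A / (r + 1) * (1 + 2 / r * 𝔼 v : Fin 3 → F, (dropCount (S.coprod M ∘ₗ iota v) : ℝ)) := by
        rw [← mul_expect, expect_add_distrib, ← mul_expect, Fintype.expect_const]
    _ ≤ _ := by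
        gcongr
        exact hb M

theorem Psi_step (G : Gad (Fin 3 → F)) {R : ℕ} {A : ℝ} (hA1 : 1 ≤ A)
    (hA : ∀ r ≤ R, G.Psi r ≤ A / (r + 1))
    (hβ : ∀ r ≤ R, ∃ β : ((Fin 3 → F) →ₗ[ZMod 2] (Fin r → ZMod 2)) → ℝ,
      (∀ S M : (Fin 3 → F) →ₗ[ZMod 2] (Fin r → ZMod 2),
        𝔼 v : Fin 3 → F, (dropCount (S.coprod M ∘ₗ iota v) : ℝ) ≤ β S) ∧
      𝔼 S, β S ≤ (3 * r + 1) / (Fintype.card F : ℝ) ^ 2) :
    ∀ r ≤ R, G.step.Psi r ≤ A * (1 + 8 / (Fintype.card F : ℝ) ^ 2) / (r + 1) := by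
  intro r hr
  have hA0 : 0 ≤ A := by linarith
  rcases Nat.eq_zero_or_pos r with rfl | hr0
  · refine (Psi_le_one _ _).trans ?_
    rw [Nat.cast_zero, zero_add, div_one]
    exact one_le_mul_of_one_le_of_one_le hA1 (le_add_of_nonneg_right (by positivity))
  · obtain ⟨β, h1, h2⟩ := hβ r hr
    have h3 : (1 : ℝ) ≤ r := by exact_mod_cast hr0
    have hq : (0 : ℝ) < Fintype.card F := by exact_mod_cast Fintype.card_pos
    calc G.step.Psi r ≤ 𝔼 S, A / (r + 1) * (1 + 2 / r * β S) :=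
          expect_le_expect fun S _ => G.N_step_le hA0 hA hr S (h1 S)
      _ = A / (r + 1) * (1 + 2 / r * 𝔼 S, β S) := by
          rw [← mul_expect, expect_add_distrib, ← mul_expect, Fintype.expect_const]
      _ ≤ A / (r + 1) * (1 + 2 / r * (4 * r / (Fintype.card F : ℝ) ^ 2)) := by
          gcongr
          refine h2.trans ?_
          gcongr
          linarith
      _ = _ := by
          field_simp
          ring

/-- The iterated gadget. -/
noncomputable def tower (F : Type) [Field F] [Fintype F] [Algebra (ZMod 2) F] :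
    ℕ → Gad (Fin 3 → F)
  | 0 => base (Fin 3 → F)
  | h + 1 => (tower F h).step

theorem err_tower (h : ℕ) : (tower F h).err ≤ (1 - 1 / (Fintype.card F : ℝ) ^ 2) ^ h := by
  induction h with
  | zero => simpa using err_le_one _
  | succ h ih =>
    have hq : (1 : ℝ) ≤ Fintype.card F := by exact_mod_cast Fintype.card_pos
    have h0 : 0 ≤ 1 - 1 / (Fintype.card F : ℝ) ^ 2 := by
      rw [sub_nonneg, div_le_one (by positivity)]
      exact one_le_pow₀ hq
    refine (err_step _).trans ?_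
    rw [pow_succ' _ h]
    exact mul_le_mul_of_nonneg_left ih h0

theorem Psi_tower {R : ℕ} (hR : R + 1 ≤ Fintype.card F)
    (hβ : ∀ r ≤ R, ∃ β : ((Fin 3 → F) →ₗ[ZMod 2] (Fin r → ZMod 2)) → ℝ,
      (∀ S M : (Fin 3 → F) →ₗ[ZMod 2] (Fin r → ZMod 2),
        𝔼 v : Fin 3 → F, (dropCount (S.coprod M ∘ₗ iota v) : ℝ) ≤ β S) ∧
      𝔼 S, β S ≤ (3 * r + 1) / (Fintype.card F : ℝ) ^ 2) (h : ℕ) :
    ∀ r ≤ R, (tower F h).Psi r ≤ 2 * (1 + 8 / (Fintype.card F : ℝ) ^ 2) ^ h / (r + 1) := by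
  induction h with
  | zero =>
    intro r hr
    refine (Psi_base r).trans ?_
    have h1 : r + 1 ≤ Fintype.card (Fin 3 → F) := by
      rw [Fintype.card_fun, Fintype.card_fin]
      calc r + 1 ≤ Fintype.card F := by omega
        _ ≤ _ := Nat.le_self_pow (by norm_num) _
    have h2 : (r : ℝ) + 1 ≤ Fintype.card (Fin 3 → F) := by exact_mod_cast h1
    have h3 : (r : ℝ) + 1 ≤ 2 ^ r := by exact_mod_cast Nat.lt_two_pow_self (n := r)
    have h4 : (1 : ℝ) / Fintype.card (Fin 3 → F) ≤ 1 / (r + 1) := by gcongr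
    have h5 : (1 / 2 : ℝ) ^ r ≤ 1 / (r + 1) := by
      rw [one_div_pow]
      gcongr
    rw [pow_zero, mul_one]
    calc _ ≤ 1 / ((r : ℝ) + 1) + 1 / (r + 1) := add_le_add h4 h5
      _ = _ := by ring
  | succ h ih =>
    intro r hr
    have h1 : (1 : ℝ) ≤ 2 * (1 + 8 / (Fintype.card F : ℝ) ^ 2) ^ h := by
      have : (1 : ℝ) ≤ (1 + 8 / (Fintype.card F : ℝ) ^ 2) ^ h :=
        one_le_pow₀ (le_add_of_nonneg_right (by positivity))
      linarith
    refine (Psi_step _ h1 ih hβ r hr).trans (le_of_eq ?_)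
    ring

end

/-- The abstract form of the gadget. -/
theorem exists_gad {ε δ : ℝ} (hε : 0 < ε) (hδ : 0 < δ) : ∃ r : ℕ, ∀ s₀ : ℕ,
    ∃ (B : Type) (_ : AddCommGroup B) (_ : Module (ZMod 2) B) (_ : Fintype B) (G : Gad B),
      s₀ ≤ finrank (ZMod 2) B ∧ G.err ≤ ε ∧
      ∀ (W : Type) [AddCommGroup W] [Module (ZMod 2) W] (S : B →ₗ[ZMod 2] W),
        r ≤ rk S → G.N S ≤ δ := by
  obtain ⟨t, ht⟩ := exists_nat_ge (1 / ε)
  obtain ⟨R₀, hR₀⟩ := exists_nat_ge (4 * Real.exp (8 * t) / δ)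
  let R := R₀ + 1
  refine ⟨R, fun s₀ => ?_⟩
  choose D hD using Drop.drop_avg
  let d := s₀ + 1 + (R + 1) + ∑ r ∈ range (R + 1), D r
  have hd : d ≠ 0 := by omega
  let F := GaloisField 2 d
  let _ : Fintype F := Fintype.ofFinite F
  have hcard : Fintype.card F = 2 ^ d := by
    rw [← Nat.card_eq_fintype_card]
    exact GaloisField.card 2 d hd
  have hdq : d < Fintype.card F := by
    rw [hcard]
    exact Nat.lt_two_pow_self
  have hq : (0 : ℝ) < Fintype.card F := by exact_mod_cast Fintype.card_pos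
  have hβ : ∀ r ≤ R, ∃ β : ((Fin 3 → F) →ₗ[ZMod 2] (Fin r → ZMod 2)) → ℝ,
      (∀ S M : (Fin 3 → F) →ₗ[ZMod 2] (Fin r → ZMod 2),
        𝔼 v : Fin 3 → F, (dropCount (S.coprod M ∘ₗ iota v) : ℝ) ≤ β S) ∧
      𝔼 S, β S ≤ (3 * r + 1) / (Fintype.card F : ℝ) ^ 2 := by
    intro r hr
    obtain ⟨β, h1, h2⟩ := hD r F
    refine ⟨β, h1, h2.trans ?_⟩
    have h3 : D r ≤ ∑ r ∈ range (R + 1), D r :=
      single_le_sum (fun _ _ => Nat.zero_le _) (mem_range.2 (by omega))
    have h4 : (D r : ℝ) ≤ Fintype.card F := by exact_mod_cast (by omega : D r ≤ Fintype.card F)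
    gcongr
    exact (div_le_one hq).2 h4
  let h := t * Fintype.card F ^ 2
  have hθ : (h : ℝ) * (1 / (Fintype.card F : ℝ) ^ 2) = t := by
    simp only [h]
    push_cast
    field_simp
  refine ⟨Fin 3 → F, inferInstance, inferInstance, inferInstance, tower F (h + 1), ?_, ?_, ?_⟩
  · rw [Module.finrank_pi_fintype, sum_const, card_univ, Fintype.card_fin, smul_eq_mul,
      GaloisField.finrank 2 hd]
    omega
  · refine (err_tower _).trans ?_
    have h0 : 0 ≤ 1 - 1 / (Fintype.card F : ℝ) ^ 2 := by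
      rw [sub_nonneg, div_le_one (by positivity)]
      exact one_le_pow₀ (by exact_mod_cast Fintype.card_pos)
    have h1 : 1 - 1 / (Fintype.card F : ℝ) ^ 2 ≤ 1 := sub_le_self _ (by positivity)
    calc (1 - 1 / (Fintype.card F : ℝ) ^ 2) ^ (h + 1) ≤ (1 - 1 / (Fintype.card F : ℝ) ^ 2) ^ h :=
          pow_le_pow_of_le_one h0 h1 (Nat.le_succ _)
      _ ≤ Real.exp (-(1 / (Fintype.card F : ℝ) ^ 2)) ^ h :=
          pow_le_pow_left₀ h0 (Real.one_sub_le_exp_neg _) _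
      _ = (Real.exp t)⁻¹ := by rw [← Real.exp_nat_mul, mul_neg, hθ, Real.exp_neg]
      _ ≤ ε := by
          rw [inv_le_comm₀ (Real.exp_pos _) hε, ← one_div]
          linarith [Real.add_one_le_exp (t : ℝ)]
  · intro W _ _ S hS
    obtain ⟨π, hπ⟩ := exists_proj S hS
    refine (N_le_comp _ S π).trans ?_
    have h1 := (tower F h).N_step_le (by positivity) (Psi_tower (by omega) hβ h) le_rfl (π ∘ₗ S)
      (fun M => Drop.drop_root R F _ M hπ)
    refine h1.trans ?_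
    have h2 : (1 + 8 / (Fintype.card F : ℝ) ^ 2) ^ h ≤ Real.exp (8 * t) := by
      calc (1 + 8 / (Fintype.card F : ℝ) ^ 2) ^ h
          ≤ Real.exp (8 / (Fintype.card F : ℝ) ^ 2) ^ h :=
            pow_le_pow_left₀ (by positivity) (by rw [add_comm]; exact Real.add_one_le_exp _) _
        _ = _ := by
            rw [← Real.exp_nat_mul, ← hθ]
            congr 1
            ring
    have hR1 : (1 : ℝ) ≤ R := by exact_mod_cast (by omega : 1 ≤ R)
    have h3 : 2 / (R : ℝ) * (2 * 2 ^ R / (Fintype.card F : ℝ) ^ 2) ≤ 1 := by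
      have h4 : 4 * 2 ^ R ≤ Fintype.card F ^ 2 := by
        rw [hcard, ← pow_mul]
        calc 4 * 2 ^ R = 2 ^ (R + 2) := by ring
          _ ≤ _ := Nat.pow_le_pow_right (by norm_num) (by omega)
      have h5 : (4 * 2 ^ R : ℝ) ≤ (Fintype.card F : ℝ) ^ 2 := by exact_mod_cast h4
      calc 2 / (R : ℝ) * (2 * 2 ^ R / (Fintype.card F : ℝ) ^ 2)
          ≤ 2 / 1 * (2 * 2 ^ R / (4 * 2 ^ R)) := by gcongr
        _ = 1 := by field_simp; norm_num
    have h6 : 4 * Real.exp (8 * t) ≤ δ * (R + 1) := by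
      rw [div_le_iff₀' hδ] at hR₀
      refine hR₀.trans ?_
      gcongr
      simp only [R]
      push_cast
      linarith
    calc _ ≤ 2 * Real.exp (8 * t) / (R + 1) * (1 + 1) := by gcongr
      _ ≤ δ := by
          rw [div_mul_eq_mul_div, div_le_iff₀ (by positivity)]
          linarith

end Gad

/-- Existence of the gadget. -/
theorem gadget {ε δ : ℝ} (hε : 0 < ε) (hδ : 0 < δ) : ∃ r : ℕ, ∀ s₀ : ℕ, ∃ (s m n : ℕ)
    (G : Gadget s m n), s₀ ≤ s ∧ G.Stable ε ∧ G.Detect r δ := by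
  classical
  obtain ⟨r, hr⟩ := Gad.exists_gad hε hδ
  refine ⟨r, fun s₀ => ?_⟩
  obtain ⟨B, _, _, _, G, h1, h2, h3⟩ := hr s₀
  let eB : B ≃ₗ[ZMod 2] Vec (finrank (ZMod 2) B) := (Module.finBasis (ZMod 2) B).equivFun
  let eV : (B × G.U) ≃ₗ[ZMod 2] Vec (finrank (ZMod 2) (B × G.U)) :=
    (Module.finBasis (ZMod 2) (B × G.U)).equivFun
  obtain ⟨n, hn⟩ := Nat.exists_eq_succ_of_ne_zero (Fintype.card_ne_zero (α := G.Ω))
  let eΩ : G.Ω ≃ Fin (n + 1) := Fintype.equivFinOfCardEq hn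
  refine ⟨_, _, n,
    { κ := eV.toLinearMap ∘ₗ LinearMap.inl _ _ _ ∘ₗ eB.symm.toLinearMap
      C := fun x => eB ((eV.symm x).1 + G.g (eV.symm x).2)
      μ := fun i => eV (G.a (eΩ.symm i), G.n (eΩ.symm i))
      equi := fun x k => ?_ }, h1, ?_, fun ι _ _ S hS => ?_⟩
  · simp only [LinearMap.comp_apply, LinearEquiv.coe_coe, map_add, LinearEquiv.symm_apply_apply,
      LinearMap.inl_apply, Prod.fst_add, Prod.snd_add, add_zero, LinearEquiv.apply_symm_apply]
    abel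
  · refine le_of_eq_of_le ?_ h2
    rw [Gad.err, ← Fintype.expect_const (ι := B) (𝔼 u : G.U, _), ← expect_prod
      (fun x : B × G.U => 𝔼 ω, if G.chg x.2 ω = 0 then (0 : ℝ) else 1)]
    refine (Fintype.expect_equiv eV.toEquiv _ _ fun x => ?_).symm
    refine Fintype.expect_equiv eΩ _ _ fun ω => if_congr ?_ rfl rfl
    simp only [LinearEquiv.coe_toEquiv, ← map_add, LinearEquiv.symm_apply_apply,
      Equiv.symm_apply_apply, EmbeddingLike.apply_eq_iff_eq, Prod.fst_add, Prod.snd_add, Gad.chg,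
      sub_eq_zero, add_assoc, add_right_inj]
  · let S' : B →ₗ[ZMod 2] (ι → ZMod 2) := S ∘ₗ eV.toLinearMap ∘ₗ LinearMap.inl _ _ _
    let L : G.U →ₗ[ZMod 2] (ι → ZMod 2) := S ∘ₗ eV.toLinearMap ∘ₗ LinearMap.inr _ _ _
    have h4 : (1 / 2 : ℝ) ^ rk S' ≤ (1 / 2) ^ r := by
      rw [← prob_ker]
      refine le_of_eq_of_le ?_ hS
      refine Fintype.expect_equiv eB.toEquiv _ _ fun b => ?_
      simp [S']
      congr
    have h5 : r ≤ rk S' :=
      (pow_le_pow_iff_right_of_lt_one₀ (by norm_num) (by norm_num)).1 h4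
    refine le_trans (le_of_eq ?_) ((G.bad_le_N S' L).trans (h3 _ S' h5))
    refine (Fintype.expect_equiv eΩ _ _ fun ω => ?_).symm
    simp [S', L, ← map_add]

end Vale.Agent.P325
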