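import Vale.Agent.P325.Generic
import Mathlib.Algebra.Module.ZMod

/-!
Definitions for the gadget: the quadratic map on `F ^ 3`, its polarisation, and the
parametrisation of the noise subspaces.
-/

namespace Vale.Agent.P325

open Finset Vale.Agent.Lib.PCP
open scoped BigOperators

scoped instance finiteLin {A B : Type} [AddCommGroup A] [Module (ZMod 2) A] [AddCommGroup B]
    [Module (ZMod 2) B] [Finite A] [Finite B] : Finite (A →ₗ[ZMod 2] B) :=
  Finite.of_injective (fun f : A →ₗ[ZMod 2] B => (f : A → B)) DFunLike.coe_injective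

noncomputable scoped instance fintypeLin {A B : Type} [AddCommGroup A] [Module (ZMod 2) A]
    [AddCommGroup B] [Module (ZMod 2) B] [Finite A] [Finite B] : Fintype (A →ₗ[ZMod 2] B) :=
  Fintype.ofFinite _

variable {F : Type} [Field F]

/-- The quadratic map. -/
def Qm (y : Fin 3 → F) : Fin 3 → F := ![y 1 * y 2, y 0 * y 2, y 0 * y 1]

/-- The polarisation of the quadratic map (the cross product in characteristic two). -/
def crs (a b : Fin 3 → F) : Fin 3 → F :=
  ![a 1 * b 2 + a 2 * b 1, a 0 * b 2 + a 2 * b 0, a 0 * b 1 + a 1 * b 0]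

theorem Qm_add (y b : Fin 3 → F) : Qm (y + b) = Qm y + Qm b + crs y b := by
  funext i
  fin_cases i <;> simp [Qm, crs] <;> ring

theorem Qm_smul (t : F) (v : Fin 3 → F) : Qm (t • v) = t ^ 2 • Qm v := by
  funext i
  fin_cases i <;> simp [Qm] <;> ring

theorem crs_add_left (a a' b : Fin 3 → F) : crs (a + a') b = crs a b + crs a' b := by
  funext i
  fin_cases i <;> simp [crs] <;> ring

theorem crs_smul_right (t : F) (a b : Fin 3 → F) : crs a (t • b) = crs (t • a) b := by
  funext i
  fin_cases i <;> simp [crs] <;> ring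

variable [Algebra (ZMod 2) F]

theorem char_two (F : Type) [Field F] [Algebra (ZMod 2) F] : CharP F 2 :=
  charP_of_injective_algebraMap (algebraMap (ZMod 2) F).injective 2

/-- The parametrisation `(t, c) ↦ (t ^ 2 Q(v) + c × v, t v)` of the noise subspace of `v`. -/
def iota (v : Fin 3 → F) : F × (Fin 3 → F) →ₗ[ZMod 2] (Fin 3 → F) × (Fin 3 → F) :=
  AddMonoidHom.toZModLinearMap 2
    { toFun := fun p => (p.1 ^ 2 • Qm v + crs p.2 v, p.1 • v)
      map_zero' := by
        ext i
        · fin_cases i <;> simp [crs]
        · simp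
      map_add' := fun p p' => by
        have := char_two F
        ext i
        · simp only [Prod.fst_add, Prod.snd_add, CharTwo.add_sq, add_smul, crs_add_left,
            Pi.add_apply]
          ring
        · simp [add_mul] }

theorem iota_apply (v : Fin 3 → F) (p : F × (Fin 3 → F)) :
    iota v p = (p.1 ^ 2 • Qm v + crs p.2 v, p.1 • v) := rfl

open Classical in
/-- The number of nonzero functionals which vanish on the range of `T`. -/
noncomputable def dropCount {P ρ : Type} [AddCommGroup P] [Module (ZMod 2) P] [Fintype ρ]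
    [DecidableEq ρ] (T : P →ₗ[ZMod 2] (ρ → ZMod 2)) : ℕ :=
  (univ.filter fun c : ρ → ZMod 2 => c ≠ 0 ∧ ∀ p, c ⬝ᵥ T p = 0).card

end Vale.Agent.P325
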