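import Vale.Agent.P325.GadgetDefs
import Mathlib.FieldTheory.Finiteness
import Mathlib.LinearAlgebra.Dual.Lemmas

/-!
Linear algebra and averaging lemmas for the gadget.
-/

namespace Vale.Agent.P325

open Finset Module Vale.Agent.Lib.PCP
open scoped BigOperators

/-- A surjective homomorphism of finite groups maps the uniform law to the uniform law. -/
theorem expect_hom {A B : Type} [AddCommGroup A] [AddCommGroup B] [Fintype A] [Fintype B]
    (φ : A →+ B) (hφ : Function.Surjective φ) (f : B → ℝ) : 𝔼 a, f (φ a) = 𝔼 b, f b := by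
  have h1 : ∀ b, 𝔼 a, f (φ a) = 𝔼 a, f (φ a + b) := by
    intro b
    obtain ⟨s, rfl⟩ := hφ b
    exact (Fintype.expect_equiv (Equiv.addRight s) _ _ fun a => by simp).symm
  calc 𝔼 a, f (φ a) = 𝔼 _b : B, 𝔼 a, f (φ a) := (Fintype.expect_const _).symm
    _ = 𝔼 b, 𝔼 a, f (φ a + b) := expect_congr rfl fun b _ => h1 b
    _ = 𝔼 a, 𝔼 b, f (φ a + b) := expect_comm _ _ _
    _ = 𝔼 _a : A, 𝔼 b, f b := expect_congr rfl fun a _ =>
        Fintype.expect_equiv (Equiv.addLeft (φ a)) _ _ fun b => by simp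
    _ = 𝔼 b, f b := Fintype.expect_const _

theorem expect_shift_right {A : Type} [AddCommGroup A] [Fintype A] (f : A → ℝ) (s : A) :
    𝔼 a, f (a + s) = 𝔼 a, f a :=
  Fintype.expect_equiv (Equiv.addRight s) _ _ fun a => by simp

theorem expect_prod {A B : Type} [Fintype A] [Fintype B] (f : A × B → ℝ) :
    𝔼 p, f p = 𝔼 a, 𝔼 b, f (a, b) := by
  rw [← univ_product_univ, expect_product]

theorem expect_eval_pi {ι U : Type} [Fintype ι] [DecidableEq ι] [AddCommGroup U] [Fintype U]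
    (i : ι) (f : U → ℝ) : 𝔼 u : ι → U, f (u i) = 𝔼 x, f x :=
  expect_hom (Pi.evalAddMonoidHom (fun _ : ι => U) i) (fun x => ⟨fun _ => x, rfl⟩) f

section

variable {B P W : Type} [AddCommGroup B] [Module (ZMod 2) B] [AddCommGroup P] [Module (ZMod 2) P]
  [AddCommGroup W] [Module (ZMod 2) W]

theorem expect_eval_lin [Finite B] [Fintype P] {e : B} (he : e ≠ 0) (f : P → ℝ) :
    𝔼 J : B →ₗ[ZMod 2] P, f (J e) = 𝔼 p, f p := by
  refine expect_hom (LinearMap.applyₗ (R := ZMod 2) (M₂ := P) e).toAddMonoidHom (fun p => ?_) f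
  obtain ⟨φ, hφ⟩ := Module.Projective.exists_dual_eq_one (ZMod 2) he
  exact ⟨φ.smulRight p, by simp [hφ]⟩

theorem expect_comp_lin [Finite B] [Finite P] [Finite W] {T : P →ₗ[ZMod 2] W}
    (hT : Function.Surjective T) (f : (B →ₗ[ZMod 2] W) → ℝ) :
    𝔼 J : B →ₗ[ZMod 2] P, f (T ∘ₗ J) = 𝔼 S, f S := by
  refine expect_hom (LinearMap.llcomp (ZMod 2) B P W T).toAddMonoidHom (fun S => ?_) f
  obtain ⟨s, hs⟩ := T.exists_rightInverse_of_surjective (LinearMap.range_eq_top.2 hT)
  refine ⟨s ∘ₗ S, ?_⟩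
  change T ∘ₗ (s ∘ₗ S) = S
  rw [← LinearMap.comp_assoc, hs, LinearMap.id_comp]

/-- The rank of a linear map. -/
noncomputable def rk (T : P →ₗ[ZMod 2] W) : ℕ := finrank (ZMod 2) (LinearMap.range T)

theorem exists_proj [Finite P] (T : P →ₗ[ZMod 2] W) {r : ℕ} (hr : r ≤ rk T) :
    ∃ π : W →ₗ[ZMod 2] (Fin r → ZMod 2), Function.Surjective (π ∘ₗ T) := by
  let e : LinearMap.range T ≃ₗ[ZMod 2] (Fin (rk T) → ZMod 2) :=
    (Module.finBasis (ZMod 2) (LinearMap.range T)).equivFun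
  let ρ : (Fin (rk T) → ZMod 2) →ₗ[ZMod 2] (Fin r → ZMod 2) :=
    LinearMap.funLeft (ZMod 2) (ZMod 2) (Fin.castLE hr)
  have hρ : Function.Surjective ρ :=
    LinearMap.funLeft_surjective_of_injective _ _ _ (Fin.castLE_injective hr)
  obtain ⟨π, hπ⟩ := LinearMap.exists_extend (ρ ∘ₗ e.toLinearMap)
  refine ⟨π, fun y => ?_⟩
  obtain ⟨x, rfl⟩ := hρ y
  obtain ⟨⟨w, p, rfl⟩, rfl⟩ := e.surjective x
  exact ⟨p, by simpa using LinearMap.congr_fun hπ ⟨T p, p, rfl⟩⟩

theorem prob_zero {A : Type} [Fintype A] [Zero A] [DecidableEq A] :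
    𝔼 a : A, (if a = 0 then (1 : ℝ) else 0) = 1 / Fintype.card A := by
  rw [Fintype.expect_eq_sum_div_card]
  simp

open Classical in
theorem prob_ker [Fintype P] (T : P →ₗ[ZMod 2] W) :
    𝔼 p, (if T p = 0 then (1 : ℝ) else 0) = (1 / 2) ^ rk T := by
  have : Finite (LinearMap.range T) := Finite.of_surjective _ T.surjective_rangeRestrict
  have : Fintype (LinearMap.range T) := Fintype.ofFinite _
  have h := expect_hom T.rangeRestrict.toAddMonoidHom T.surjective_rangeRestrict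
    (fun w => if w = 0 then (1 : ℝ) else 0)
  rw [prob_zero, Module.card_eq_pow_finrank (K := ZMod 2), ZMod.card] at h
  rw [one_div_pow, rk]
  push_cast at h
  rw [← h]
  refine expect_congr rfl fun p _ => ?_
  simp [Subtype.ext_iff]

theorem rk_le [Finite P] {r : ℕ} (T : P →ₗ[ZMod 2] (Fin r → ZMod 2)) : rk T ≤ r := by
  simpa [rk] using Submodule.finrank_le (LinearMap.range T)

theorem two_pow_le_dropCount [Finite P] {r : ℕ} (T : P →ₗ[ZMod 2] (Fin r → ZMod 2)) :
    2 ^ (r - rk T) ≤ dropCount T + 1 := by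
  classical
  let Θ : (Fin r → ZMod 2) →ₗ[ZMod 2] Module.Dual (ZMod 2) P :=
    T.dualMap ∘ₗ (dotProductEquiv (ZMod 2) (Fin r)).toLinearMap
  have h1 : finrank (ZMod 2) (LinearMap.range Θ) = rk T := by
    rw [LinearMap.range_comp_of_range_eq_top _ (LinearEquiv.range _),
      LinearMap.finrank_range_dualMap_eq_finrank_range, rk]
  have h2 := Θ.finrank_range_add_finrank_ker
  rw [h1, Module.finrank_fintype_fun_eq_card, Fintype.card_fin] at h2
  have h3 : Fintype.card (LinearMap.ker Θ) = 2 ^ (r - rk T) := by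
    rw [Module.card_eq_pow_finrank (K := ZMod 2), ZMod.card]
    congr 1
    omega
  rw [← h3, Fintype.card_subtype, dropCount]
  refine le_trans (card_le_card fun c hc => ?_) (card_insert_le (0 : Fin r → ZMod 2) _)
  rw [mem_insert]
  by_cases h0 : c = 0
  · exact Or.inl h0
  · refine Or.inr (mem_filter.2 ⟨mem_univ _, h0, fun p => ?_⟩)
    have := LinearMap.congr_fun (LinearMap.mem_ker.1 (mem_filter.1 hc).2) p
    simpa [Θ] using this

end

theorem sq_le_two_pow (j : ℕ) : j ^ 2 + 2 ≤ 2 * 2 ^ j := by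
  induction j with
  | zero => norm_num
  | succ j ih =>
    rcases Nat.lt_or_ge j 2 with h | h
    · interval_cases j <;> norm_num
    · rw [pow_succ 2 j]
      nlinarith

/-- The potential inequality. -/
theorem potential_le {r r' Z : ℕ} (h : r' ≤ r) (hZ : 2 ^ (r - r') ≤ Z + 1) :
    1 / ((r' : ℝ) + 1) ≤ 1 / ((r : ℝ) + 1) * (1 + 2 * Z / r) := by
  obtain ⟨j, rfl⟩ := Nat.exists_eq_add_of_le h
  rw [Nat.add_sub_cancel_left] at hZ
  rcases Nat.eq_zero_or_pos j with rfl | hj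
  · simp only [add_zero]
    exact le_mul_of_one_le_right (by positivity) (le_add_of_nonneg_right (by positivity))
  · have h1 : j ^ 2 ≤ 2 * Z := by
      have := sq_le_two_pow j
      omega
    have h2 : (j : ℝ) ^ 2 ≤ 2 * Z := by exact_mod_cast h1
    have h3 : (1 : ℝ) ≤ j := by exact_mod_cast hj
    have h4 : (0 : ℝ) ≤ r' := by positivity
    push_cast
    rw [div_mul_eq_mul_div, one_mul, div_le_div_iff₀ (by positivity) (by positivity)]
    have h5 : (j : ℝ) * (r' + j) ≤ 2 * Z * (r' + 1) := by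
      calc (j : ℝ) * (r' + j) ≤ j ^ 2 * (r' + 1) := by
            nlinarith [mul_nonneg h4 (mul_nonneg (by linarith : (0 : ℝ) ≤ j)
              (by linarith : (0 : ℝ) ≤ j - 1))]
        _ ≤ 2 * Z * (r' + 1) := by gcongr
    have h6 : (j : ℝ) ≤ 2 * Z / (r' + j) * (r' + 1) := by
      rw [div_mul_eq_mul_div, le_div_iff₀ (by positivity)]
      exact h5
    nlinarith

end Vale.Agent.P325
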