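import Vale.Agent.Lib.PCP.Fourier
import Mathlib.Algebra.MvPolynomial.SchwartzZippel
import Mathlib.Algebra.MvPolynomial.PDeriv
import Mathlib.LinearAlgebra.Dimension.Constructions

/-!
The generic lemma of the gadget: for all but a fraction `D / |F|` of the tuples
`S : Fin r → Fin 3 → F`, and for every `M`, at most `3 r` nonzero vectors `c` over the field with
two elements satisfy `⟨m_c, α_c⟩ ^ 2 = N(α_c)`.
-/

namespace Vale.Agent.P325

open Finset MvPolynomial Vale.Agent.Lib.PCP
open scoped BigOperators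

section

variable {ρ : Type} [Fintype ρ] [DecidableEq ρ]

/-- The generic linear combination. -/
noncomputable def gal (c : ρ → ZMod 2) (l : Fin 3) : MvPolynomial (ρ × Fin 3) (ZMod 2) :=
  ∑ i, C (c i) * X (i, l)

theorem pderiv_gal (c : ρ → ZMod 2) (i : ρ) (l l' : Fin 3) :
    pderiv (i, l) (gal c l') = if l' = l then C (c i) else 0 := by
  simp only [gal, map_sum, pderiv_C_mul, pderiv_X, Pi.single_apply, Prod.mk.injEq]
  split_ifs with h
  · simp [h]
  · simp [h]

theorem gal_ne_zero {c : ρ → ZMod 2} {i : ρ} (h : c i = 1) (l : Fin 3) : gal c l ≠ 0 := by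
  intro e
  have := pderiv_gal c i l l
  rw [e, map_zero, if_pos rfl, h, C_1] at this
  exact zero_ne_one this

omit [Fintype ρ] [DecidableEq ρ] in
theorem pderiv_sq_mul (p : ρ × Fin 3) (a f : MvPolynomial (ρ × Fin 3) (ZMod 2)) :
    pderiv p (a ^ 2 * f) = a ^ 2 * pderiv p f := by
  rw [pderiv_mul, sq, pderiv_mul, mul_comm (pderiv p a) a, CharTwo.add_self_eq_zero, zero_mul,
    zero_add]

omit [Fintype ρ] [DecidableEq ρ] in
theorem C_sq (x : ZMod 2) : (C x : MvPolynomial (ρ × Fin 3) (ZMod 2)) ^ 2 = C x := by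
  rw [← C_pow, sq, f2_mul_self]

/-- More than `3 r` nonzero vectors have a dependency whose twisted value is not zero. -/
theorem exists_dep {ι : Type} [Fintype ι] (c : ι → ρ → ZMod 2) (hc : Function.Injective c)
    (h0 : ∀ t, c t ≠ 0) (hcard : 3 * Fintype.card ρ < Fintype.card ι) :
    ∃ la : ι → MvPolynomial (ρ × Fin 3) (ZMod 2),
      (∀ i l, ∑ t, la t * (C (c t i) * gal (c t) l) = 0) ∧
      ∑ t, la t ^ 2 * (gal (c t) 0 * gal (c t) 1 * gal (c t) 2) ≠ 0 := by
  classical
  by_contra hcon
  push Not at hcon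
  -- dependencies are closed under multiplication by a coordinate
  have step : ∀ la : ι → MvPolynomial (ρ × Fin 3) (ZMod 2),
      (∀ i l, ∑ t, la t * (C (c t i) * gal (c t) l) = 0) →
      ∀ i j l, ∑ t, (C (c t i) * la t) * (C (c t j) * gal (c t) l) = 0 := by
    intro la hla i j l
    have h1 := hcon la hla
    have tau : ∀ k, ∑ t, la t * (C (c t i) * C (c t j) * C (c t k)) = 0 := by
      intro k
      have h2 := congrArg (fun p => pderiv (k, 2) (pderiv (j, 1) (pderiv (i, 0) p))) h1
      simp only [map_sum, pderiv_sq_mul, map_zero] at h2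
      have h3 : ∀ t, pderiv (k, 2) (pderiv (j, 1) (pderiv (i, 0)
          (gal (c t) 0 * gal (c t) 1 * gal (c t) 2))) = C (c t i) * C (c t j) * C (c t k) := by
        intro t
        simp [pderiv_gal]
      simp only [h3] at h2
      refine pow_eq_zero_iff (n := 2) (by norm_num) |>.1 ?_
      rw [sum_pow_char 2, ← h2]
      refine sum_congr rfl fun t _ => ?_
      simp only [mul_pow, C_sq]
    calc ∑ t, (C (c t i) * la t) * (C (c t j) * gal (c t) l)
        = ∑ k, (∑ t, la t * (C (c t i) * C (c t j) * C (c t k))) * X (k, l) := by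
          simp only [gal, mul_sum, sum_mul]
          rw [sum_comm]
          exact sum_congr rfl fun k _ => sum_congr rfl fun t _ => by ring
      _ = 0 := by simp only [tau, zero_mul, sum_const_zero]
  have step2 : ∀ (a : ρ → ZMod 2) (la : ι → MvPolynomial (ρ × Fin 3) (ZMod 2)),
      (∀ i l, ∑ t, la t * (C (c t i) * gal (c t) l) = 0) → ∀ s : Finset ρ,
      ∀ j l, ∑ t, (C (∏ i ∈ s, (c t i + a i)) * la t) * (C (c t j) * gal (c t) l) = 0 := by
    intro a la hla s
    induction s using Finset.induction_on with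
    | empty => simpa using hla
    | insert i s hi ih =>
      intro j l
      have h1 := step _ ih i j l
      have h2 := congrArg (fun p => C (a i) * p) (ih j l)
      simp only [mul_zero, mul_sum] at h2
      have h3 := congrArg₂ (· + ·) h1 h2
      simp only [add_zero, ← sum_add_distrib] at h3
      rw [← h3]
      refine sum_congr rfl fun t _ => ?_
      rw [prod_insert hi, C_mul, C_add]
      ring
  have hli : LinearIndependent (MvPolynomial (ρ × Fin 3) (ZMod 2))
      (fun t (p : ρ × Fin 3) => (C (c t p.1) * gal (c t) p.2 : MvPolynomial (ρ × Fin 3) (ZMod 2))) := by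
    rw [Fintype.linearIndependent_iff]
    intro la hla t
    have h1 : ∀ i l, ∑ t, la t * (C (c t i) * gal (c t) l) = 0 := fun i l => by
      simpa [Finset.sum_apply] using congrFun hla (i, l)
    obtain ⟨j, hj⟩ := Function.ne_iff.1 (h0 t)
    have hj1 : c t j = 1 := f2_ne_zero.1 hj
    have h2 := step2 (fun i => c t i + 1) la h1 univ j 0
    rw [sum_eq_single t] at h2
    · have h3 : ∏ i, (c t i + (c t i + 1)) = 1 :=
        prod_eq_one fun i _ => by rw [← add_assoc, f2_add_self, zero_add]
      rw [h3, hj1, C_1, one_mul, one_mul] at h2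
      exact (mul_eq_zero.1 h2).resolve_right (gal_ne_zero hj1 0)
    · intro t' _ hne
      obtain ⟨i, hi⟩ := Function.ne_iff.1 (hc.ne hne)
      have h3 : ∏ i, (c t' i + (c t i + 1)) = 0 :=
        prod_eq_zero (mem_univ i) (by rw [← add_assoc, f2_add_eq_one.2 hi, f2_add_self])
      rw [h3, C_0, zero_mul, zero_mul]
    · simp
  have := hli.fintype_card_le_finrank
  rw [Module.finrank_fintype_fun_eq_card, Fintype.card_prod, Fintype.card_fin] at this
  omega

variable {F : Type} [Field F] [Algebra (ZMod 2) F]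

/-- The combination of the rows of `S` with coefficients `c`. -/
def comb (S : ρ → Fin 3 → F) (c : ρ → ZMod 2) : Fin 3 → F := ∑ i, c i • S i

open Classical in
/-- The bad vectors of the pair `(S, M)`. -/
noncomputable def badSet (S M : ρ → Fin 3 → F) : Finset (ρ → ZMod 2) :=
  univ.filter fun c => c ≠ 0 ∧
    (comb M c ⬝ᵥ comb S c) ^ 2 = comb S c 0 * comb S c 1 * comb S c 2

theorem mem_badSet {S M : ρ → Fin 3 → F} {c : ρ → ZMod 2} : c ∈ badSet S M ↔ c ≠ 0 ∧
    (comb M c ⬝ᵥ comb S c) ^ 2 = comb S c 0 * comb S c 1 * comb S c 2 := by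
  simp [badSet]

omit [DecidableEq ρ] in
theorem aeval_gal (S : ρ → Fin 3 → F) (c : ρ → ZMod 2) (l : Fin 3) :
    aeval (fun p : ρ × Fin 3 => S p.1 p.2) (gal c l) = comb S c l := by
  simp [gal, comb, Finset.sum_apply, Algebra.smul_def]

/-- A nonzero polynomial vanishes at all tuples with many bad vectors. -/
theorem exists_generic_poly (ρ : Type) [Fintype ρ] [DecidableEq ρ] :
    ∃ P : MvPolynomial (ρ × Fin 3) (ZMod 2), P ≠ 0 ∧
      ∀ (F : Type) [Field F] [Algebra (ZMod 2) F] (S M : ρ → Fin 3 → F),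
        3 * Fintype.card ρ < (badSet S M).card → aeval (fun p : ρ × Fin 3 => S p.1 p.2) P = 0 := by
  classical
  have h1 : ∀ T : Finset (ρ → ZMod 2), ∃ P : MvPolynomial (ρ × Fin 3) (ZMod 2), P ≠ 0 ∧
      ∀ (F : Type) [Field F] [Algebra (ZMod 2) F] (S M : ρ → Fin 3 → F), badSet S M = T →
        3 * Fintype.card ρ < T.card → aeval (fun p : ρ × Fin 3 => S p.1 p.2) P = 0 := by
    intro T
    by_cases hT : 0 ∉ T ∧ 3 * Fintype.card ρ < T.card
    · obtain ⟨la, h1, h2⟩ := exists_dep (ι := T) (fun t => t.1) Subtype.val_injective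
        (fun t e => hT.1 (e ▸ t.2)) (by simpa using hT.2)
      refine ⟨_, h2, fun F _ _ S M hb _ => ?_⟩
      have : CharP F 2 := charP_of_injective_algebraMap (algebraMap (ZMod 2) F).injective 2
      set φ := aeval (R := ZMod 2) (fun p : ρ × Fin 3 => S p.1 p.2) with hφ
      have h3 : ∑ t : T, φ (la t) * (comb M t ⬝ᵥ comb S t) = 0 := by
        calc ∑ t : T, φ (la t) * (comb M t ⬝ᵥ comb S t)
            = ∑ i, ∑ l, M i l * φ (∑ t : T, la t * (C (t.1 i) * gal t l)) := by
              simp only [map_sum, map_mul, hφ, aeval_gal, aeval_C, dotProduct, mul_sum]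
              refine Eq.trans ?_ (sum_congr rfl fun i _ => sum_comm)
              refine Eq.trans ?_ sum_comm
              refine sum_congr rfl fun t _ => Eq.trans ?_ sum_comm
              refine sum_congr rfl fun l _ => ?_
              have h5 : comb M t l = ∑ i, algebraMap (ZMod 2) F (t.1 i) * M i l := by
                simp only [comb, Finset.sum_apply, Pi.smul_apply]
                simp only [Algebra.smul_def]
              rw [h5, sum_mul, mul_sum]
              exact sum_congr rfl fun i _ => by ring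
          _ = 0 := by simp only [h1, map_zero, mul_zero, sum_const_zero]
      have h4 := congrArg (· ^ 2) h3
      simp only [sum_pow_char 2, mul_pow, ne_eq, OfNat.ofNat_ne_zero, not_false_eq_true,
        zero_pow] at h4
      rw [← h4, map_sum]
      refine sum_congr rfl fun t _ => ?_
      rw [(mem_badSet.1 (hb ▸ t.2)).2]
      simp only [map_mul, map_pow, hφ, aeval_gal]
    · refine ⟨1, one_ne_zero, fun F _ _ S M hb h => absurd ⟨?_, h⟩ hT⟩
      rw [← hb, mem_badSet]
      simp
  choose P hP using h1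
  refine ⟨∏ T, P T, prod_ne_zero_iff.2 fun T _ => (hP T).1, fun F _ _ S M h => ?_⟩
  rw [map_prod]
  exact prod_eq_zero (mem_univ (badSet S M)) ((hP _).2 F S M rfl h)

end

/-- Schwartz and Zippel for a polynomial over the prime field and an arbitrary finite type of
variables. -/
theorem expect_aeval_eq_zero_le {σ : Type} [Fintype σ] [DecidableEq σ]
    {P : MvPolynomial σ (ZMod 2)} (hP : P ≠ 0) (F : Type) [Field F] [Algebra (ZMod 2) F]
    [Fintype F] [DecidableEq F] :
    𝔼 x : σ → F, (if aeval x P = 0 then (1 : ℝ) else 0) ≤ P.totalDegree / Fintype.card F := by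
  let e := Fintype.equivFin σ
  let p : MvPolynomial (Fin (Fintype.card σ)) F := map (algebraMap (ZMod 2) F) (rename e P)
  have hp : p ≠ 0 := by
    intro h
    have h1 := map_injective _ (algebraMap (ZMod 2) F).injective (h.trans (map_zero _).symm)
    exact hP (rename_injective _ e.injective (h1.trans (map_zero _).symm))
  have hd : p.totalDegree ≤ P.totalDegree := by
    refine le_trans ?_ (totalDegree_rename_le e P)
    exact sup_mono (support_map_subset _ _)
  have h1 := schwartz_zippel_totalDegree hp (univ : Finset F)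
  rw [Fintype.piFinset_univ] at h1
  have h2 : 𝔼 x : σ → F, (if aeval x P = 0 then (1 : ℝ) else 0) =
      𝔼 y : Fin (Fintype.card σ) → F, (if eval y p = 0 then (1 : ℝ) else 0) := by
    refine Fintype.expect_equiv (Equiv.arrowCongr e (Equiv.refl F)) _ _ fun x => ?_
    have : eval (Equiv.arrowCongr e (Equiv.refl F) x) p = aeval x P := by
      simp only [p, eval_map, ← aeval_def, aeval_rename]
      congr 2
      funext i
      simp
    rw [this]
  rw [h2, Fintype.expect_eq_sum_div_card, sum_boole, Fintype.card_fun, Fintype.card_fin]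
  have h3 := (NNRat.cast_le (K := ℝ)).2 h1
  push_cast at h3 ⊢
  rw [card_univ] at h3
  refine h3.trans ?_
  gcongr

open Classical in
/-- The generic lemma. -/
theorem generic_lemma (ρ : Type) [Fintype ρ] [DecidableEq ρ] : ∃ D : ℕ,
    ∀ (F : Type) [Field F] [Algebra (ZMod 2) F] [Fintype F],
      𝔼 S : ρ → Fin 3 → F,
        (if ∃ M, 3 * Fintype.card ρ < (badSet S M).card then (1 : ℝ) else 0) ≤
          D / Fintype.card F := by
  obtain ⟨P, hP, h⟩ := exists_generic_poly ρ
  refine ⟨P.totalDegree, fun F _ _ _ => le_trans ?_ (expect_aeval_eq_zero_le hP F)⟩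
  rw [← Fintype.expect_equiv (Equiv.curry ρ (Fin 3) F).symm
    (fun S => if aeval (fun p : ρ × Fin 3 => S p.1 p.2) P = 0 then (1 : ℝ) else 0) _ fun S => rfl]
  refine expect_le_expect fun S _ => ?_
  split_ifs with h1 h2
  · exact le_rfl
  · obtain ⟨M, hM⟩ := h1
    exact absurd (h F S M hM) h2
  · norm_num
  · exact le_rfl

/-- The generic lemma in asymptotic form. -/
theorem generic (r : ℕ) {ξ : ℝ} (hξ : 0 < ξ) : ∃ q₀ : ℕ, ∀ (F : Type) [Field F] [Fintype F]
    [DecidableEq F] [Algebra (ZMod 2) F], q₀ ≤ Fintype.card F →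
    (𝔼 α : Fin r → Fin 3 → F, open Classical in if ∃ μ : Fin r → Fin 3 → F,
      3 * r < (univ.filter fun c : Fin r → ZMod 2 => c ≠ 0 ∧
        ((∑ i, c i • μ i) ⬝ᵥ (∑ i, c i • α i)) ^ 2 = ∏ j, (∑ i, c i • α i) j).card
      then (1 : ℝ) else 0) ≤ ξ := by
  obtain ⟨D, hD⟩ := generic_lemma (Fin r)
  obtain ⟨q₀, hq⟩ := exists_nat_ge (D / ξ)
  refine ⟨q₀, fun F _ _ _ _ hF => ?_⟩
  have h1 : (D : ℝ) / Fintype.card F ≤ ξ := by
    have h2 : (0 : ℝ) < Fintype.card F := Nat.cast_pos.2 Fintype.card_pos
    have h3 : (q₀ : ℝ) ≤ Fintype.card F := Nat.cast_le.2 hF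
    rw [div_le_iff₀ hξ] at hq
    rw [div_le_iff₀ h2]
    nlinarith
  refine le_trans (le_of_eq (expect_congr rfl fun α _ => ?_)) ((hD F).trans h1)
  congr 1
  refine propext (exists_congr fun μ => ?_)
  rw [Fintype.card_fin]
  congr! 2
  ext c
  simp only [mem_badSet, mem_filter, mem_univ, true_and, comb, Fin.prod_univ_three]

end Vale.Agent.P325
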