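import Vale.Agent.P325.Core

/-!
The folded indicator functions of a labeling, and the acceptance probability as a quadratic form.
-/

namespace Vale.Agent.P325

open Finset Vale.Agent.Lib.PCP
open scoped BigOperators

section Shift

variable {k t : ℕ} {V : Type} [AddCommGroup V] [Module (ZMod 2) V]

theorem shift_add (U : Fin k → Fin t → Eq3 ℕ) (h h' : Fin k → Fin t → V) (w w' : V) :
    shift U (h + h') (w + w') = shift U h w + shift U h' w' := by
  funext i
  rcases i with _ | ⟨j, c, p⟩
  · simp only [shift, Pi.add_apply, smul_add, Finset.sum_add_distrib]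
    abel
  · simp [shift]

/-- The indicator vector of the constant column. -/
def oneCol (k t : ℕ) : Ix k t → ZMod 2 := fun i => if i = none then 1 else 0

theorem dot_oneCol (z : Ix k t → ZMod 2) : z ⬝ᵥ oneCol k t = z none := by
  simp [dotProduct, oneCol]

theorem tens_oneCol (U : Fin k → Fin t → Eq3 ℕ) (w : V) :
    tens w (oneCol k t) = shift U 0 w := by
  funext i
  rcases i with _ | ⟨j, c, p⟩ <;> simp [tens, oneCol, shift]

/-- The vector of the equation in position `(j, c)`. -/
def eqCol (U : Fin k → Fin t → Eq3 ℕ) (j : Fin k) (c : Fin t) : Ix k t → ZMod 2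
  | none => erhs (U j c)
  | some (j', c', _) => if j' = j ∧ c' = c then 1 else 0

theorem tens_eqCol (U : Fin k → Fin t → Eq3 ℕ) (j : Fin k) (c : Fin t) (a : V) :
    tens a (eqCol U j c) = shift U (fun j' c' => if j' = j ∧ c' = c then a else 0) 0 := by
  funext i
  rcases i with _ | ⟨j', c', p⟩
  · simp only [tens, eqCol, shift, zero_add]
    rw [Finset.sum_eq_single j, Finset.sum_eq_single c]
    · simp
    · intro b _ hb; simp [hb]
    · simp
    · intro b _ hb; simp [hb]
    · simp
  · simp only [tens, eqCol, shift]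
    split_ifs <;> simp

theorem dot_eqCol (U : Fin k → Fin t → Eq3 ℕ) (j : Fin k) (c : Fin t) (z : Ix k t → ZMod 2) :
    z ⬝ᵥ eqCol U j c = z none * erhs (U j c) +
      (z (some (j, c, 0)) + z (some (j, c, 1)) + z (some (j, c, 2))) := by
  simp only [dotProduct, Fintype.sum_option, eqCol, Fintype.sum_prod_type]
  congr 1
  rw [Finset.sum_eq_single j, Finset.sum_eq_single c]
  · simp [Fin.sum_univ_three]
  · intro b _ hb; simp [hb]
  · simp
  · intro b _ hb; simp [hb]
  · simp

theorem tens_add_right {ι : Type} (a : V) (l l' : ι → ZMod 2) :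
    tens a (l + l') = tens a l + tens a l' := by
  funext i; simp [tens, add_smul]

theorem exists_valid (U : Fin k → Fin t → Eq3 ℕ) : ∃ z, Valid U z := by
  refine ⟨fun i => match i with
    | none => 1
    | some (j, c, p) => if p = 0 then erhs (U j c) else 0, rfl, fun j c => ?_⟩
  simp

end Shift

section Fold

variable {s m n k t : ℕ} (G : Gadget s m n) (F : Name k t (Vec m) → Vec s)
  (U : Fin k → Fin t → Eq3 ℕ)

/-- The indicator function of the label `c`. -/
noncomputable def indL (c : Vec s) (M : Ix k t → Vec m) : ℝ := if F (name U M) = c then 1 else 0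

/-- The folded indicator function of the label `c`. -/
noncomputable def foldL (c : Vec s) (M : Ix k t → Vec m) : ℝ :=
  𝔼 h : Fin k → Fin t → Vec m, 𝔼 w : Vec s, indL F U (c + w) (M + shift U h (G.κ w))

theorem indL_nonneg (c : Vec s) (M : Ix k t → Vec m) : 0 ≤ indL F U c M := by
  unfold indL; split_ifs <;> norm_num

theorem sum_indL (M : Ix k t → Vec m) : ∑ c, indL F U c M = 1 := by
  simp [indL]

theorem foldL_nonneg (c : Vec s) (M : Ix k t → Vec m) : 0 ≤ foldL G F U c M :=
  Finset.expect_nonneg fun _ _ => Finset.expect_nonneg fun _ _ => indL_nonneg _ _ _ _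

theorem sum_foldL (M : Ix k t → Vec m) : ∑ c, foldL G F U c M = 1 := by
  unfold foldL
  rw [← Finset.expect_sum_comm]
  have : ∀ h : Fin k → Fin t → Vec m,
      ∑ c, 𝔼 w : Vec s, indL F U (c + w) (M + shift U h (G.κ w)) = 1 := by
    intro h
    rw [← Finset.expect_sum_comm]
    have : ∀ w : Vec s, ∑ c, indL F U (c + w) (M + shift U h (G.κ w)) = 1 := by
      intro w
      rw [← sum_indL F U (M + shift U h (G.κ w))]
      exact Fintype.sum_equiv (Equiv.addRight w) _ _ fun _ => rfl
    simp only [this, Fintype.expect_const]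
  simp only [this, Fintype.expect_const]

theorem foldL_shift (c w : Vec s) (h : Fin k → Fin t → Vec m) (M : Ix k t → Vec m) :
    foldL G F U (c + w) (M + shift U h (G.κ w)) = foldL G F U c M := by
  unfold foldL
  refine Fintype.expect_equiv (Equiv.addLeft h) _ _ fun h' => ?_
  refine Fintype.expect_equiv (Equiv.addLeft w) _ _ fun w' => ?_
  simp only [Equiv.coe_addLeft, map_add, shift_add, add_assoc]

theorem foldL_le_one (c : Vec s) (M : Ix k t → Vec m) : foldL G F U c M ≤ 1 := by
  rw [← sum_foldL G F U M]
  exact Finset.single_le_sum (f := fun c => foldL G F U c M)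
    (fun c _ => foldL_nonneg G F U c M) (Finset.mem_univ c)

/-- Averages over the folding group. -/
theorem sum_expect_shift (Φ : Vec s → (Ix k t → Vec m) → ℝ) :
    ∑ c, 𝔼 M, (𝔼 h : Fin k → Fin t → Vec m, 𝔼 w : Vec s, Φ (c + w) (M + shift U h (G.κ w))) =
      ∑ c, 𝔼 M, Φ c M := by
  have key : ∀ (h : Fin k → Fin t → Vec m) (w : Vec s),
      ∑ c, 𝔼 M, Φ (c + w) (M + shift U h (G.κ w)) = ∑ c, 𝔼 M, Φ c M := by
    intro h w
    refine Fintype.sum_equiv (Equiv.addRight w) _ _ fun c => ?_
    exact Fintype.expect_equiv (Equiv.addRight (shift U h (G.κ w))) _ _ fun _ => rfl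
  calc _ = 𝔼 h : Fin k → Fin t → Vec m, 𝔼 w : Vec s,
        ∑ c, 𝔼 M, Φ (c + w) (M + shift U h (G.κ w)) := by
        simp_rw [Finset.expect_sum_comm]
        refine Finset.sum_congr rfl fun c _ => ?_
        rw [Finset.expect_comm]
        refine Finset.expect_congr rfl fun h _ => ?_
        rw [Finset.expect_comm]
    _ = _ := by simp only [key, Fintype.expect_const]

theorem noiseOp_foldL_shift (c w : Vec s) (h : Fin k → Fin t → Vec m) (M : Ix k t → Vec m) :
    noiseOp G.μ (foldL G F U (c + w)) (M + shift U h (G.κ w)) =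
      noiseOp G.μ (foldL G F U c) M := by
  unfold noiseOp
  refine Finset.expect_congr rfl fun r _ => Finset.expect_congr rfl fun b _ => ?_
  rw [add_right_comm, foldL_shift]

/-- The acceptance probability as a quadratic form. -/
theorem acc_eq : acc G F U =
    ∑ c, 𝔼 M, foldL G F U c M * noiseOp G.μ (foldL G F U c) M := by
  have h1 : acc G F U = ∑ c, 𝔼 M, indL F U c M * noiseOp G.μ (foldL G F U c) M := by
    rw [← Finset.expect_sum_comm]
    unfold acc
    refine Finset.expect_congr rfl fun M _ => ?_
    rw [Finset.sum_eq_single (F (name U M))]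
    · simp only [indL, if_true, one_mul, noiseOp, foldL]
    · intro c _ hc
      simp [indL, hc.symm]
    · simp
  rw [h1, ← sum_expect_shift G U
    (fun c M => indL F U c M * noiseOp G.μ (foldL G F U c) M)]
  refine Finset.sum_congr rfl fun c _ => Finset.expect_congr rfl fun M _ => ?_
  simp only [noiseOp_foldL_shift]
  conv_rhs => rw [foldL, Finset.expect_mul]
  refine Finset.expect_congr rfl fun h _ => ?_
  rw [Finset.expect_mul]

/-- Fourier coefficients along a direction vanish at invalid points. -/
theorem hat_foldL_eq_zero (c : Vec s) (a : Vec m) (M : Ix k t → Vec m) {z : Ix k t → ZMod 2}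
    (h1 : z none = 1) (hz : ¬ Valid U z) :
    hat (fun l => foldL G F U c (M + tens a l)) z = 0 := by
  simp only [Valid, h1, true_and, not_forall] at hz
  obtain ⟨j, c', hj⟩ := hz
  refine hat_eq_zero_of_even (z := eqCol U j c') (fun l => ?_) ?_
  · have := foldL_shift G F U c 0 (fun j' c'' => if j' = j ∧ c'' = c' then a else 0)
      (M + tens a l)
    rw [map_zero, add_zero, ← tens_eqCol] at this
    rw [tens_add_right, ← add_assoc, this]
  · rw [dot_eqCol, h1, one_mul, Ne, f2_add_eq_zero]
    exact fun e => hj e.symm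

theorem hat_foldL (c : Vec s) (a : Vec m) (M : Ix k t → Vec m) (z : Ix k t → ZMod 2) :
    hat (fun l => foldL G F U c (M + tens a l)) z =
      𝔼 h : Fin k → Fin t → Vec m, 𝔼 w : Vec s,
        hat (fun l => indL F U (c + w) (M + shift U h (G.κ w) + tens a l)) z := by
  unfold hat foldL
  simp_rw [Finset.expect_mul]
  rw [Finset.expect_comm]
  refine Finset.expect_congr rfl fun h _ => ?_
  rw [Finset.expect_comm]
  refine Finset.expect_congr rfl fun w _ => Finset.expect_congr rfl fun l _ => ?_
  rw [add_right_comm]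

end Fold

end Vale.Agent.P325
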